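import Vale.Agent.P237.Swap.Defs

/-!
Calculus of a concave even profile: positivity, the bound `|slope| ≤ 1`, and integration by parts
against the derivative of a power of the profile.
-/

namespace Vale.Agent.P237.Swap

open MeasureTheory Set Filter
open scoped Topology

noncomputable section

variable {n : ℕ} {f : ℝ → ℝ}

theorem Prof.anti (hf : Prof f) : AntitoneOn f (Icc (0 : ℝ) 1) := by
  intro s hs t ht hst
  rcases hst.eq_or_lt with rfl | hlt
  · exact le_rfl
  have htpos : 0 < t := hs.1.trans_lt hlt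
  have h1 : s / t ≤ 1 := (div_le_one htpos).2 hst
  have h0 : 0 ≤ s / t := div_nonneg hs.1 htpos.le
  have := hf.conc.2 (show t ∈ Icc (-1 : ℝ) 1 from ⟨by linarith, ht.2⟩)
    (show -t ∈ Icc (-1 : ℝ) 1 from ⟨by linarith [ht.2], by linarith⟩)
    (show 0 ≤ (1 + s / t) / 2 by linarith) (show 0 ≤ (1 - s / t) / 2 by linarith) (by ring)
  simp only [smul_eq_mul, hf.even t] at this
  rw [show (1 + s / t) / 2 * t + (1 - s / t) / 2 * -t = s by field_simp; ring] at this
  linarith

theorem Prof.le_zero (hf : Prof f) {t : ℝ} (ht : t ∈ Icc (-1 : ℝ) 1) : f t ≤ f 0 := by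
  have h := hf.conc.2 ht (show -t ∈ Icc (-1 : ℝ) 1 from ⟨by linarith [ht.2], by linarith [ht.1]⟩)
    (show (0:ℝ) ≤ 1/2 by norm_num) (show (0:ℝ) ≤ 1/2 by norm_num) (by norm_num)
  simp only [smul_eq_mul, hf.even t] at h
  rw [show 1/2 * t + 1/2 * -t = (0:ℝ) by ring] at h
  linarith

theorem Prof.pos_of_mem (hf : Prof f) {t : ℝ} (ht : t ∈ Ioo (-1 : ℝ) 1) : 0 < f t := by
  suffices H : ∀ t, 0 ≤ t → t < 1 → 0 < f t by
    rcases le_total 0 t with h | h
    · exact H t h ht.2
    · rw [← hf.even t]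
      exact H (-t) (by linarith) (by linarith [ht.1])
  intro t h0 h1
  have h := hf.conc.2 (show (0:ℝ) ∈ Icc (-1 : ℝ) 1 from ⟨by norm_num, zero_le_one⟩)
    (show (1:ℝ) ∈ Icc (-1 : ℝ) 1 from ⟨by norm_num, le_rfl⟩)
    (show 0 ≤ 1 - t by linarith) h0 (by ring)
  simp only [smul_eq_mul, mul_zero, zero_add, mul_one] at h
  nlinarith [hf.pos, hf.nonneg 1]

theorem Prof.deriv_neg (hf : Prof f) (t : ℝ) : deriv f (-t) = -deriv f t := by
  have h := deriv_comp_neg (f := f) (x := t)
  rw [show (fun x => f (-x)) = f from funext hf.even] at h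
  linarith

theorem Prof.legD_neg (hf : Prof f) (t : ℝ) : legD f (-t) = legD f t := by
  rw [legD, legD, hf.deriv_neg, hf.even]
  ring

theorem Prof.slope_neg (hf : Prof f) (t : ℝ) : slope f (-t) = -slope f t := by
  rw [slope, slope, hf.legD_neg, hf.deriv_neg]
  ring

/-- The tangent lines lie above the profile. -/
theorem Prof.le_tangent (hf : Prof f) {t : ℝ} (ht : t ∈ Ioo (-1 : ℝ) 1)
    (hd : DifferentiableAt ℝ f t) {s : ℝ} (hs : s ∈ Icc (-1 : ℝ) 1) :
    f s ≤ f t + deriv f t * (s - t) := by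
  rcases lt_trichotomy s t with h | h | h
  · have := hf.conc.deriv_le_slope hs (Ioo_subset_Icc_self ht) h hd
    rw [slope_def_field, le_div_iff₀ (sub_pos.2 h)] at this
    linarith
  · simp [h]
  · have := hf.conc.slope_le_deriv (Ioo_subset_Icc_self ht) hs h hd
    rw [slope_def_field, div_le_iff₀ (sub_pos.2 h)] at this
    linarith

theorem Prof.legD_pos (hf : Prof f) {t : ℝ} (ht : t ∈ Ioo (-1 : ℝ) 1) : 0 < legD f t := by
  by_cases hd : DifferentiableAt ℝ f t
  · have := hf.le_tangent ht hd (s := 0) ⟨by norm_num, zero_le_one⟩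
    rw [legD]
    linarith [hf.pos]
  · rw [legD, deriv_zero_of_not_differentiableAt hd]
    simpa using hf.pos_of_mem ht

theorem Prof.abs_deriv_le (hf : Prof f) {t : ℝ} (ht : t ∈ Ioo (-1 : ℝ) 1) :
    |deriv f t| ≤ legD f t := by
  by_cases hd : DifferentiableAt ℝ f t
  · have h1 := hf.le_tangent ht hd (s := 1) ⟨by norm_num, le_rfl⟩
    have h2 := hf.le_tangent ht hd (s := -1) ⟨le_rfl, by norm_num⟩
    rw [legD, abs_le]
    constructor <;> linarith [hf.nonneg 1, hf.nonneg (-1)]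
  · rw [deriv_zero_of_not_differentiableAt hd, abs_zero]
    exact (hf.legD_pos ht).le

theorem Prof.abs_slope_le (hf : Prof f) {t : ℝ} (ht : t ∈ Ioo (-1 : ℝ) 1) : |slope f t| ≤ 1 := by
  rw [slope, abs_div, abs_neg, abs_of_pos (hf.legD_pos ht), div_le_one (hf.legD_pos ht)]
  exact hf.abs_deriv_le ht

theorem Prof.exists_lipschitz (hf : Prof f) {a : ℝ} (ha : a < 1) :
    ∃ C, LipschitzOnWith C f (Icc (-a) a) :=
  ((hf.conc.subset Ioo_subset_Icc_self (convex_Ioo _ _)).locallyLipschitzOn isOpen_Ioo |>.mono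
    fun _ ht => ⟨by linarith [ht.1], by linarith [ht.2]⟩).exists_lipschitzOnWith_of_compact
      isCompact_Icc

theorem Prof.ae_differentiableAt (hf : Prof f) :
    ∀ᵐ t : ℝ, t ∈ Ioo (-1 : ℝ) 1 → DifferentiableAt ℝ f t := by
  have key : ∀ k : ℕ, ∀ᵐ t : ℝ, t ∈ Ioo (-(1 - 1 / ((k : ℝ) + 2))) (1 - 1 / ((k : ℝ) + 2)) →
      DifferentiableAt ℝ f t := by
    intro k
    set a : ℝ := 1 - 1 / ((k : ℝ) + 2) with ha
    have ha1 : a < 1 := by
      rw [ha]
      have : (0:ℝ) < 1 / ((k : ℝ) + 2) := by positivity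
      linarith
    have ha0 : -a ≤ a := by
      have : 1 / ((k : ℝ) + 2) ≤ 1 := by
        rw [div_le_one (by positivity)]
        linarith [(k.cast_nonneg : (0:ℝ) ≤ k)]
      rw [ha]; linarith
    obtain ⟨C, hC⟩ := hf.exists_lipschitz ha1
    filter_upwards [(LipschitzOnWith.absolutelyContinuousOnInterval (a := -a) (b := a)
      (by rwa [uIcc_of_le ha0])).ae_differentiableAt] with t h ht
    exact h (by rw [uIcc_of_le ha0]; exact Ioo_subset_Icc_self ht)
  filter_upwards [ae_all_iff.2 key] with t h ht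
  obtain ⟨k, hk⟩ := exists_nat_one_div_lt (show 0 < 1 - |t| by
    have : |t| < 1 := abs_lt.2 ht
    linarith)
  have h2 : 1 / ((k : ℝ) + 2) ≤ 1 / ((k : ℝ) + 1) := by gcongr; linarith
  have h3 : |t| < 1 - 1 / ((k : ℝ) + 2) := by linarith
  exact h k (abs_lt.1 h3)

/-- The derivative of a power, almost everywhere. -/
theorem Prof.deriv_pow_ae (hf : Prof f) (n : ℕ) :
    ∀ᵐ t : ℝ, t ∈ Ioo (-1 : ℝ) 1 →
      deriv (fun t => f t ^ n) t = n * f t ^ (n - 1) * deriv f t := by
  filter_upwards [hf.ae_differentiableAt] with t h ht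
  exact ((h ht).hasDerivAt.fun_pow n).deriv

theorem Prof.pow_anti (hf : Prof f) (n : ℕ) : AntitoneOn (fun t => f t ^ n) (Icc (0 : ℝ) 1) :=
  fun _ hs _ ht hst => pow_le_pow_left₀ (hf.nonneg _) (hf.anti hs ht hst) n

theorem Prof.integrable_pow (hf : Prof f) (n : ℕ) :
    IntervalIntegrable (fun t => f t ^ n) volume (-1) 1 := by
  have h1 : IntervalIntegrable (fun t => f t ^ n) volume 0 1 :=
    AntitoneOn.intervalIntegrable (by rw [uIcc_of_le zero_le_one]; exact hf.pow_anti n)
  have h2 := h1.comp_mul_left (c := -1)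
  simp only [neg_one_mul, hf.even, div_neg, div_one] at h2
  exact h2.symm.trans (by simpa using h1)

theorem Prof.integrable_deriv_pow (hf : Prof f) (n : ℕ) :
    IntervalIntegrable (deriv fun t => f t ^ n) volume (-1) 1 := by
  have h0 : IntervalIntegrable (deriv fun t => -(f t ^ n)) volume 0 1 :=
    MonotoneOn.intervalIntegrable_deriv (by rw [uIcc_of_le zero_le_one]; exact (hf.pow_anti n).neg)
  have h1 : IntervalIntegrable (deriv fun t => f t ^ n) volume 0 1 := by
    have := h0.neg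
    rw [deriv.fun_neg'] at this
    simpa [Pi.neg_def] using this
  have h2 := (h1.comp_mul_left (c := -1)).neg
  have e : (fun t => -deriv (fun t => f t ^ n) (-1 * t)) = deriv fun t => f t ^ n := by
    funext t
    have h := deriv_comp_neg (f := fun t => f t ^ n) (x := t)
    simp only [hf.even] at h
    rw [neg_one_mul, ← h]
  simp only [Pi.neg_def, e, div_neg, div_one, neg_zero] at h2
  exact h2.symm.trans h1

theorem Prof.acPow (hf : Prof f) (n : ℕ) {a : ℝ} (ha0 : 0 ≤ a) (ha : a < 1) :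
    AbsolutelyContinuousOnInterval (fun t => f t ^ n) (-a) a := by
  obtain ⟨C, hC⟩ := hf.exists_lipschitz ha
  have hac : AbsolutelyContinuousOnInterval f (-a) a :=
    LipschitzOnWith.absolutelyContinuousOnInterval (by rwa [uIcc_of_le (by linarith)])
  induction n with
  | zero =>
    simpa using (LipschitzWith.const (α := ℝ) (1:ℝ)).lipschitzOnWith.absolutelyContinuousOnInterval
  | succ k ih => simpa [pow_succ] using ih.fun_mul hac

/-- The limit of the `n`-th power of the profile at the end of its interval. -/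
def top (n : ℕ) (f : ℝ → ℝ) : ℝ := f 0 ^ n + ∫ t in (0:ℝ)..1, deriv (fun t => f t ^ n) t

theorem Prof.tendsto_pow (hf : Prof f) (n : ℕ) :
    Tendsto (fun a => f a ^ n) (𝓝[<] (1 : ℝ)) (𝓝 (top n f)) := by
  have hI : IntervalIntegrable (deriv fun t => f t ^ n) volume 0 1 :=
    (hf.integrable_deriv_pow n).mono_set (by
      rw [uIcc_of_le zero_le_one, uIcc_of_le (by norm_num)]
      exact Icc_subset_Icc (by norm_num) le_rfl)
  have hc := intervalIntegral.continuousOn_primitive_interval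
    (a := (0:ℝ)) (b := 1) (μ := volume) (intervalIntegrable_iff_integrableOn_Icc_of_le zero_le_one |>.1 hI |>.mono_set
      (by rw [uIcc_of_le zero_le_one]))
  have h1 : Tendsto (fun a => f 0 ^ n + ∫ t in (0:ℝ)..a, deriv (fun t => f t ^ n) t) (𝓝[<] (1:ℝ))
      (𝓝 (top n f)) := by
    refine tendsto_const_nhds.add (((hc 1 (by rw [uIcc_of_le zero_le_one]; simp))).mono_left ?_)
    rw [uIcc_of_le zero_le_one, nhdsWithin_Icc_eq_nhdsLE one_pos]
    exact nhdsWithin_mono _ Iio_subset_Iic_self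
  refine h1.congr' ?_
  filter_upwards [Ioo_mem_nhdsLT (show (0:ℝ) < 1 by norm_num)] with a ha
  have hpow : AbsolutelyContinuousOnInterval (fun t => f t ^ n) 0 a :=
    (hf.acPow n ha.1.le ha.2).mono (by
      rw [uIcc_of_le ha.1.le, uIcc_of_le (by linarith [ha.1])]
      exact Icc_subset_Icc (by linarith [ha.1]) le_rfl)
  rw [hpow.integral_deriv_eq_sub]
  ring

theorem Prof.top_nonneg (hf : Prof f) (n : ℕ) : 0 ≤ top n f :=
  ge_of_tendsto (hf.tendsto_pow n) (Eventually.of_forall fun a => pow_nonneg (hf.nonneg a) n)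

theorem Prof.top_eq (hf : Prof f) (n : ℕ) : top n f = f 1 ^ n := by
  refine tendsto_nhds_unique (hf.tendsto_pow n) ?_
  refine Tendsto.pow ((hf.cont 1 (by constructor <;> norm_num)).tendsto.mono_left ?_) n
  rw [nhdsWithin_Icc_eq_nhdsLE (by norm_num : (-1:ℝ) < 1)]
  exact nhdsWithin_mono _ Iio_subset_Iic_self

/-- Integration by parts over the whole interval. -/
theorem Prof.ibp (hf : Prof f) (n : ℕ) {η : ℝ → ℝ} (hη : ContDiff ℝ 1 η) :
    (∫ t in (-1:ℝ)..1, deriv η t * f t ^ n) + ∫ t in (-1:ℝ)..1, η t * deriv (fun t => f t ^ n) t =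
      top n f * (η 1 - η (-1)) := by
  set F : ℝ → ℝ := fun t => f t ^ n with hF
  set g : ℝ → ℝ := fun t => deriv η t * F t + η t * deriv F t with hg
  have i1 : IntervalIntegrable (fun t => deriv η t * F t) volume (-1) 1 :=
    (hf.integrable_pow n).continuousOn_mul (hη.continuous_deriv (by simp)).continuousOn
  have i2 : IntervalIntegrable (fun t => η t * deriv F t) volume (-1) 1 :=
    (hf.integrable_deriv_pow n).continuousOn_mul hη.continuous.continuousOn
  have hgi : IntegrableOn g (uIcc (-1:ℝ) 1) := by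
    rw [uIcc_of_le (by norm_num)]
    exact (intervalIntegrable_iff_integrableOn_Icc_of_le (by norm_num)).1 (i1.add i2)
  rw [← intervalIntegral.integral_add i1 i2]
  have hc := intervalIntegral.continuousOn_primitive_interval' (μ := volume) (i1.add i2)
    (show (0:ℝ) ∈ uIcc (-1:ℝ) 1 by rw [uIcc_of_le (by norm_num)]; constructor <;> norm_num)
  have hlim : ∀ e ∈ Icc (-1:ℝ) 1, Tendsto (fun x => ∫ t in (0:ℝ)..x, g t) (𝓝[Icc (-1:ℝ) 1] e)
      (𝓝 (∫ t in (0:ℝ)..e, g t)) := fun e he => by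
    have := hc e (by rwa [uIcc_of_le (by norm_num)])
    rwa [uIcc_of_le (by norm_num : (-1:ℝ) ≤ 1)] at this
  have hmap : Tendsto (fun a : ℝ => -a) (𝓝[<] (1:ℝ)) (𝓝[Icc (-1:ℝ) 1] (-1)) := by
    refine tendsto_nhdsWithin_iff.2 ⟨(continuous_neg.tendsto' _ _ rfl).mono_left nhdsWithin_le_nhds, ?_⟩
    filter_upwards [Ioo_mem_nhdsLT (show (0:ℝ) < 1 by norm_num)] with a ha
    exact ⟨by linarith [ha.2], by linarith [ha.1]⟩
  have hid : Tendsto (fun a : ℝ => a) (𝓝[<] (1:ℝ)) (𝓝[Icc (-1:ℝ) 1] 1) := by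
    refine tendsto_nhdsWithin_iff.2 ⟨nhdsWithin_le_nhds, ?_⟩
    filter_upwards [Ioo_mem_nhdsLT (show (0:ℝ) < 1 by norm_num)] with a ha
    exact ⟨by linarith [ha.1], ha.2.le⟩
  have hL := ((hlim 1 (by constructor <;> norm_num)).comp hid).sub
    ((hlim (-1) (by constructor <;> norm_num)).comp hmap)
  have hR : Tendsto (fun a => η a * F a - η (-a) * F a) (𝓝[<] (1:ℝ))
      (𝓝 (η 1 * top n f - η (-1) * top n f)) :=
    ((hη.continuous.continuousAt.mono_left nhdsWithin_le_nhds).mul (hf.tendsto_pow n)).sub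
      ((((hη.continuous.comp continuous_neg).continuousAt (x := (1:ℝ))).mono_left
        nhdsWithin_le_nhds).mul (hf.tendsto_pow n))
  have hsplit : ∀ a ∈ Icc (0:ℝ) 1, (∫ t in (0:ℝ)..a, g t) - ∫ t in (0:ℝ)..-a, g t =
      ∫ t in -a..a, g t := fun a ha => by
    have hs : ∀ b ∈ Icc (-1:ℝ) 1, IntervalIntegrable g volume 0 b := fun b hb =>
      (i1.add i2).mono_set (uIcc_subset_uIcc (by rw [uIcc_of_le (by norm_num)]; constructor <;> norm_num)
        (by rwa [uIcc_of_le (by norm_num)]))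
    rw [intervalIntegral.integral_interval_sub_left (hs a ⟨by linarith [ha.1], ha.2⟩)
      (hs (-a) ⟨by linarith [ha.2], by linarith [ha.1]⟩)]
  have heq : ∀ᶠ a in 𝓝[<] (1:ℝ), ((fun x => ∫ t in (0:ℝ)..x, g t) ∘ (fun a => a)) a -
      ((fun x => ∫ t in (0:ℝ)..x, g t) ∘ fun a : ℝ => -a) a = η a * F a - η (-a) * F a := by
    filter_upwards [Ioo_mem_nhdsLT (show (0:ℝ) < 1 by norm_num)] with a ha
    have hac : AbsolutelyContinuousOnInterval η (-a) a :=
      hη.contDiffOn.absolutelyContinuousOnInterval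
    have := hac.integral_deriv_mul_eq_sub (hf.acPow n ha.1.le ha.2)
    rw [Function.comp_apply, Function.comp_apply, hsplit a (Ioo_subset_Icc_self ha)]
    simp only [hg, hF, hf.even a] at this ⊢
    exact this
  have h := tendsto_nhds_unique (hL.congr' heq) hR
  rw [hsplit 1 (by constructor <;> norm_num)] at h
  simp only [hg] at h
  rw [h]
  ring

end

end Vale.Agent.P237.Swap
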