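import Vale.Agent.P237.Swap.Swap

/-!
The kernel `φ |a| - φ |b|` of a convex nondecreasing test function: the swap constraint gives the
sign of `swapX`.
-/

namespace Vale.Agent.P237.Swap

open MeasureTheory Set Filter
open scoped Topology

noncomputable section

/-- A convex test function. -/
structure Test (φ : ℝ → ℝ) : Prop where
  conv : ConvexOn ℝ (Icc (0 : ℝ) 1) φ
  mono : MonotoneOn φ (Icc (0 : ℝ) 1)
  cont : ContinuousOn φ (Icc (0 : ℝ) 1)

/-- The kernel of a test function. -/
def diffKer (φ : ℝ → ℝ) (a b : ℝ) : ℝ := φ |a| - φ |b|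

theorem abs_mem {a : ℝ} (ha : a ∈ Icc (-1 : ℝ) 1) : |a| ∈ Icc (0 : ℝ) 1 :=
  ⟨abs_nonneg a, abs_le.2 ha⟩

theorem Test.convex_abs {φ : ℝ → ℝ} (hφ : Test φ) :
    ConvexOn ℝ (Icc (-1 : ℝ) 1) fun t => φ |t| := by
  refine ⟨convex_Icc _ _, fun x hx y hy p q hp hq hpq => ?_⟩
  have h1 := abs_mem hx
  have h2 := abs_mem hy
  have h3 := abs_mem ((convex_Icc (-1 : ℝ) 1) hx hy hp hq hpq)
  have h4 := (convex_Icc (0 : ℝ) 1) h1 h2 hp hq hpq
  refine (hφ.mono h3 h4 ?_).trans (hφ.conv.2 h1 h2 hp hq hpq)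
  simp only [smul_eq_mul]
  refine (abs_add_le _ _).trans (le_of_eq ?_)
  rw [abs_mul, abs_mul, abs_of_nonneg hp, abs_of_nonneg hq]

theorem Test.kernel {φ : ℝ → ℝ} (hφ : Test φ) : Kernel (diffKer φ) where
  cont := by
    have h : ContinuousOn (fun t => φ |t|) (Icc (-1 : ℝ) 1) :=
      hφ.cont.comp continuous_abs.continuousOn fun t ht => abs_mem ht
    exact (h.comp continuousOn_fst fun p hp => hp.1).sub (h.comp continuousOn_snd fun p hp => hp.2)
  even a b := by simp [diffKer]
  swap a _ b _ := by simp [diffKer]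

/-- The subgradient used in the tests, clamped to `[-r, r]`. -/
def sub (φ : ℝ → ℝ) (r p : ℝ) : ℝ :=
  derivWithin (fun t => φ |t|) (Ioi (max (-r) (min r p))) (max (-r) (min r p))

theorem Test.le_sub {φ : ℝ → ℝ} (hφ : Test φ) {r p : ℝ} (hr : r < 1) (hp : p ∈ Icc (-r) r)
    {b : ℝ} (hb : b ∈ Icc (-1 : ℝ) 1) : φ |p| + sub φ r p * (b - p) ≤ φ |b| := by
  have e : max (-r) (min r p) = p := by rw [min_eq_right hp.2, max_eq_right hp.1]
  rw [sub, e]
  have hc := hφ.convex_abs
  have hpi : p ∈ interior (Icc (-1 : ℝ) 1) := by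
    rw [interior_Icc]; exact ⟨by linarith [hp.1], by linarith [hp.2]⟩
  rcases lt_trichotomy b p with h | h | h
  · have h1 := (hc.slope_le_leftDeriv_of_mem_interior hb hpi h).trans
      (hc.leftDeriv_le_rightDeriv_of_mem_interior hpi)
    rw [slope_def_field, div_le_iff₀ (sub_pos.2 h)] at h1
    linarith
  · simp [h]
  · have h1 := hc.rightDeriv_le_slope_of_mem_interior hpi hb h
    rw [slope_def_field, le_div_iff₀ (sub_pos.2 h)] at h1
    linarith

theorem Test.sub_mono {φ : ℝ → ℝ} (hφ : Test φ) {r : ℝ} (hr0 : 0 ≤ r) (hr : r < 1) :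
    Monotone (sub φ r) := by
  intro p q hpq
  have hm : ∀ p, max (-r) (min r p) ∈ interior (Icc (-1 : ℝ) 1) := fun p => by
    rw [interior_Icc]
    exact ⟨lt_of_lt_of_le (by linarith) (le_max_left _ _),
      lt_of_le_of_lt (max_le (by linarith) (min_le_left _ _)) hr⟩
  exact hφ.convex_abs.monotoneOn_rightDeriv (hm p) (hm q)
    (max_le_max le_rfl (min_le_min le_rfl hpq))

/-- The slope on `(0, 1)`, `1` from `1` on and `0` elsewhere. -/
def slope1 (f : ℝ → ℝ) (t : ℝ) : ℝ :=
  if t ∈ Ioo (0 : ℝ) 1 then max 0 (min 1 (slope f t)) else if t < 1 then 0 else 1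

theorem slope1_mem (f : ℝ → ℝ) (t : ℝ) : slope1 f t ∈ Icc (0 : ℝ) 1 := by
  unfold slope1
  split_ifs
  · exact ⟨le_max_left _ _, max_le zero_le_one (min_le_left _ _)⟩
  · exact ⟨le_rfl, zero_le_one⟩
  · exact ⟨zero_le_one, le_rfl⟩

theorem slope1_one (f : ℝ → ℝ) : slope1 f 1 = 1 := by simp [slope1]

theorem Prof.slope1_eq {f : ℝ → ℝ} (hf : Prof f) {t : ℝ} (ht : t ∈ Ioo (0 : ℝ) 1) :
    slope1 f t = slope f t := by
  have ht' : t ∈ Ioo (-1 : ℝ) 1 := ⟨by linarith [ht.1], ht.2⟩
  have h0 : 0 ≤ slope f t := by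
    rw [slope]
    refine div_nonneg (neg_nonneg.2 ?_) (hf.legD_pos ht').le
    by_cases hd : DifferentiableAt ℝ f t
    · have := hf.le_tangent ht' hd (s := 0) ⟨by norm_num, zero_le_one⟩
      have := hf.le_zero (Ioo_subset_Icc_self ht')
      by_contra hc
      nlinarith [ht.1, not_le.1 hc]
    · rw [deriv_zero_of_not_differentiableAt hd]
  rw [slope1, if_pos ht, min_eq_right ((le_abs_self _).trans (hf.abs_slope_le ht')), max_eq_right h0]

theorem Prof.measurable_slope1 {f : ℝ → ℝ} (hf : Prof f) : Measurable (slope1 f) := by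
  set g : ℝ → ℝ := fun t => f (clamp t) with hg
  have hgc : Continuous g :=
    hf.cont.comp_continuous (f := clamp) (by unfold clamp; fun_prop) clamp_mem
  have e : slope1 f = fun t => if t ∈ Ioo (0 : ℝ) 1 then
      max 0 (min 1 (-deriv f t / (g t - t * deriv f t))) else if t < 1 then 0 else 1 := by
    funext t
    by_cases h : t ∈ Ioo (0 : ℝ) 1
    · simp only [slope1, if_pos h, slope, legD, hg,
        clamp_of_mem (show t ∈ Icc (-1 : ℝ) 1 from ⟨by linarith [h.1], h.2.le⟩)]
    · simp only [slope1, if_neg h]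
  rw [e]
  exact Measurable.ite measurableSet_Ioo (measurable_const.max (measurable_const.min
    ((measurable_deriv f).neg.div (hgc.measurable.sub (measurable_id.mul (measurable_deriv f))))))
    (Measurable.ite measurableSet_Iio measurable_const measurable_const)

theorem Prof.integrable_weight {f : ℝ → ℝ} (hf : Prof f) {n : ℕ} (hn : 1 ≤ n) :
    IntervalIntegrable (fun t => f t ^ (n - 1) * legD f t) volume 0 1 := by
  have h01 : uIcc (0 : ℝ) 1 ⊆ uIcc (-1 : ℝ) 1 := by
    rw [uIcc_of_le zero_le_one, uIcc_of_le (by norm_num)]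
    exact Icc_subset_Icc (by norm_num) le_rfl
  have h := (((hf.integrable_pow n).const_mul (n : ℝ)).sub
    ((hf.integrable_deriv_pow n).continuousOn_mul continuousOn_id)).mono_set h01
  refine (h.const_mul ((n : ℝ)⁻¹)).congr_ae ?_
  rw [uIoc_of_le zero_le_one]
  filter_upwards [ae_restrict_mem measurableSet_Ioc, ae_restrict_of_ae (hf.deriv_pow_ae n),
    ae_restrict_of_ae (Measure.ae_ne volume (1 : ℝ))] with t ht hd hne
  have ht' : t ∈ Ioo (-1 : ℝ) 1 := ⟨by linarith [ht.1], lt_of_le_of_ne ht.2 hne⟩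
  have hn0 : (n : ℝ) ≠ 0 := Nat.cast_ne_zero.2 (by omega)
  simp only [id, legD]
  rw [hd ht', show f t ^ n = f t ^ (n - 1) * f t by rw [← pow_succ, Nat.sub_add_cancel hn]]
  field_simp

/-- The swap constraint for the kernel of a test function gives the sign of `swapX`. -/
theorem swapX_nonneg {φ f : ℝ → ℝ} {n : ℕ} (hn : 1 ≤ n) (hφ : Test φ) (hf : Prof f)
    (h : SwapOK n (diffKer φ) f) : 0 ≤ swapX n φ f := by
  set φ' : ℝ → ℝ := fun t => φ |clamp t| with hφ'
  have hφc : Continuous φ' :=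
    hφ.cont.comp_continuous (f := fun t => |clamp t|) (by unfold clamp; fun_prop)
      fun t => abs_mem (clamp_mem t)
  obtain ⟨C, hC⟩ := isCompact_Icc.exists_bound_of_continuousOn hφ.cont
  have hC' : ∀ t, |φ' t| ≤ C := fun t => hC _ (abs_mem (clamp_mem t))
  have hφe : ∀ t ∈ Icc (0 : ℝ) 1, φ' t = φ t := fun t ht => by
    simp only [hφ', clamp_of_mem (show t ∈ Icc (-1 : ℝ) 1 from ⟨by linarith [ht.1], ht.2⟩),
      abs_of_nonneg ht.1]
  set q := slope1 f with hq
  have hqm : Measurable q := hf.measurable_slope1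
  have hw := hf.integrable_weight hn
  have key : ∀ r ∈ Ioo (0 : ℝ) 1, 0 ≤ (n : ℝ) * (∫ t in (0:ℝ)..1,
      f t ^ (n - 1) * legD f t * (φ' t - φ' (r * q t))) + f 1 ^ n * (φ 1 - φ r) := by
    intro r hr
    set p : ℝ → ℝ := fun t => r * q t with hp
    have hp0 : ∀ t, 0 ≤ p t := fun t => mul_nonneg hr.1.le (slope1_mem f t).1
    have hpr : ∀ t, p t ∈ Icc (-r) r := fun t =>
      ⟨by linarith [hp0 t, hr.1], mul_le_of_le_one_right hr.1.le (slope1_mem f t).2⟩
    have hpm : Measurable p := hqm.const_mul r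
    set s : ℝ → ℝ := fun t => sub φ r (p t) with hs
    have hsm : Measurable s := (hφ.sub_mono hr.1.le hr.2).measurable.comp hpm
    set S := max |sub φ r (-r)| |sub φ r r| with hS
    have hsb : ∀ t, |s t| ≤ S := fun t => by
      have h1 := hφ.sub_mono hr.1.le hr.2 (hpr t).1
      have h2 := hφ.sub_mono hr.1.le hr.2 (hpr t).2
      have := neg_abs_le (sub φ r (-r))
      have := le_abs_self (sub φ r r)
      have := le_max_left |sub φ r (-r)| |sub φ r r|
      have := le_max_right |sub φ r (-r)| |sub φ r r|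
      simp only [hs]
      rw [abs_le]
      constructor <;> linarith
    have hps : ∀ t, 0 ≤ s t * p t := fun t => by
      have := hφ.le_sub hr.2 (hpr t) (b := -p t)
        ⟨by linarith [(hpr t).2, hr.2], by linarith [hp0 t]⟩
      rw [abs_neg] at this
      simp only [hs]
      linarith
    set A : ℝ → ℝ := fun t => φ' t - φ' (p t) + s t * p t with hA
    set B : ℝ → ℝ := fun t => -s t with hB
    have hAb : ∀ t, |A t| ≤ C + C + S := fun t => by
      have h1 : |s t * p t| ≤ S := by
        rw [abs_mul]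
        refine (mul_le_mul (hsb t) (show |p t| ≤ 1 from ?_) (abs_nonneg _)
          ((abs_nonneg _).trans (hsb t))).trans (mul_one S).le
        rw [abs_of_nonneg (hp0 t)]
        linarith [(hpr t).2, hr.2]
      exact (abs_add_le _ _).trans (add_le_add ((abs_sub _ _).trans (add_le_add (hC' _) (hC' _))) h1)
    have hok := h A B ((hφc.measurable.sub (hφc.measurable.comp hpm)).add (hsm.mul hpm)) hsm.neg
      ⟨C + C + S, fun t _ => ⟨hAb t, by
        rw [hB, abs_neg]
        linarith [hsb t, (abs_nonneg _).trans (hC' 0)]⟩⟩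
      (fun a ha b hb => by
        have := hφ.le_sub hr.2 (hpr a) hb
        rw [abs_of_nonneg (hp0 a)] at this
        simp only [diffKer, hA, hB, hs, hφe a ha, abs_of_nonneg ha.1,
          hφe (p a) ⟨hp0 a, (hpr a).2.trans hr.2.le⟩] at this ⊢
        linarith)
    have hp1 : p 1 = r := by simp only [hp, hq, slope1_one, mul_one]
    have hs1 : 0 ≤ (1 - r) * s 1 := by
      have := hps 1
      rw [hp1] at this
      exact mul_nonneg (by linarith [hr.2]) ((mul_nonneg_iff_of_pos_right hr.1).1 this)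
    have e1 : A 1 + B 1 ≤ φ 1 - φ r := by
      simp only [hA, hB, hp1, hφe 1 (by norm_num), hφe r ⟨hr.1.le, hr.2.le⟩]
      linarith
    refine hok.trans (add_le_add (mul_le_mul_of_nonneg_left ?_ (Nat.cast_nonneg n))
      (mul_le_mul_of_nonneg_left e1 (pow_nonneg (hf.nonneg 1) n)))
    have hbd : ∀ (g : ℝ → ℝ) (D : ℝ), Measurable g → (∀ t, |g t| ≤ D) → ∀ w : ℝ → ℝ,
        IntervalIntegrable w volume 0 1 → IntervalIntegrable (fun t => w t * g t) volume 0 1 :=
      fun g D hg hD w hw => by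
        rw [intervalIntegrable_iff] at hw ⊢
        exact hw.mul_bdd hg.aestronglyMeasurable (Eventually.of_forall fun t => hD t)
    have hdp : IntervalIntegrable (fun t => f t ^ (n - 1) * deriv f t) volume 0 1 := by
      refine hw.mono_fun' ((((hf.cont.mono ?_).pow (n - 1)).aestronglyMeasurable
        measurableSet_uIoc).mul (measurable_deriv f).aestronglyMeasurable) ?_
      · rw [uIoc_of_le zero_le_one]
        exact fun t ht => ⟨by linarith [ht.1], ht.2⟩
      · rw [uIoc_of_le zero_le_one]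
        filter_upwards [ae_restrict_mem measurableSet_Ioc,
          ae_restrict_of_ae (Measure.ae_ne volume (1 : ℝ))] with t ht hne
        rw [Real.norm_eq_abs, abs_mul, abs_of_nonneg (pow_nonneg (hf.nonneg t) _)]
        exact mul_le_mul_of_nonneg_left
          (hf.abs_deriv_le ⟨by linarith [ht.1], lt_of_le_of_ne ht.2 hne⟩) (pow_nonneg (hf.nonneg t) _)
    have hrhs := hbd (fun t => φ' t - φ' (p t)) (C + C)
      (hφc.measurable.sub (hφc.measurable.comp hpm))
      (fun t => (abs_sub _ _).trans (add_le_add (hC' _) (hC' _))) _ hw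
    have hlhs : IntervalIntegrable (fun t => f t ^ (n - 1) * (legD f t * A t - deriv f t * B t))
        volume 0 1 := by
      have := (hbd A _ ((hφc.measurable.sub (hφc.measurable.comp hpm)).add (hsm.mul hpm)) hAb _ hw).sub
        (hbd B S hsm.neg (fun t => by rw [hB, abs_neg]; exact hsb t) _ hdp)
      simpa only [mul_sub, mul_assoc] using this
    refine intervalIntegral.integral_mono_on_of_le_Ioo zero_le_one hlhs hrhs fun t ht => ?_
    have hD := hf.legD_pos (show t ∈ Ioo (-1:ℝ) 1 from ⟨by linarith [ht.1], ht.2⟩)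
    have hqt : q t = slope f t := hf.slope1_eq ht
    have hdq : deriv f t = -(q t * legD f t) := by
      rw [hqt, slope, div_mul_cancel₀ _ hD.ne', neg_neg]
    rw [mul_assoc (f t ^ (n - 1))]
    refine mul_le_mul_of_nonneg_left ?_ (pow_nonneg (hf.nonneg t) _)
    have hsq : 0 ≤ s t * q t * (1 - r) * legD f t := by
      refine mul_nonneg (mul_nonneg ?_ (by linarith [hr.2])) hD.le
      refine (mul_nonneg_iff_of_pos_left hr.1).1 ?_
      have := hps t
      simp only [hp] at this
      linarith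
    simp only [hA, hB, hdq, hp]
    linarith
  set r : ℕ → ℝ := fun k => 1 - 1 / ((k : ℝ) + 2) with hrd
  have hr : ∀ k, r k ∈ Ioo (0 : ℝ) 1 := fun k => by
    have h1 : 1 / ((k : ℝ) + 2) < 1 := by
      rw [div_lt_one (by positivity)]
      linarith [(k.cast_nonneg : (0:ℝ) ≤ k)]
    have h2 : 0 < 1 / ((k : ℝ) + 2) := by positivity
    simp only [hrd, mem_Ioo]
    constructor <;> linarith
  have hlim : Tendsto r atTop (𝓝 1) := by
    have h0 : Tendsto (fun k : ℕ => 1 / ((k : ℝ) + 2)) atTop (𝓝 0) := by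
      refine squeeze_zero (fun k => by positivity) (fun k => ?_) tendsto_one_div_add_atTop_nhds_zero_nat
      gcongr
      linarith
    simpa [hrd] using h0.const_sub 1
  have hT : Tendsto (fun k => (n : ℝ) * (∫ t in (0:ℝ)..1,
      f t ^ (n - 1) * legD f t * (φ' t - φ' (r k * q t))) + f 1 ^ n * (φ 1 - φ (r k))) atTop
      (𝓝 ((n : ℝ) * (∫ t in (0:ℝ)..1, f t ^ (n - 1) * legD f t * (φ' t - φ' (q t))) +
        f 1 ^ n * (φ 1 - φ 1))) := by
    refine ((intervalIntegral.tendsto_integral_filter_of_dominated_convergence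
      (fun t => ‖f t ^ (n - 1) * legD f t‖ * (C + C)) ?_ ?_ ?_ ?_).const_mul _).add
      (((tendsto_const_nhds (x := φ 1)).sub ?_).const_mul _)
    · exact Eventually.of_forall fun k => (intervalIntegrable_iff.1 hw).aestronglyMeasurable.mul
        (hφc.measurable.sub (hφc.measurable.comp (hqm.const_mul (r k)))).aestronglyMeasurable
    · refine Eventually.of_forall fun k => Eventually.of_forall fun t _ => ?_
      rw [norm_mul]
      exact mul_le_mul_of_nonneg_left
        ((Real.norm_eq_abs _).le.trans ((abs_sub _ _).trans (add_le_add (hC' _) (hC' _))))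
        (norm_nonneg _)
    · exact hw.norm.mul_const _
    · refine Eventually.of_forall fun t _ => (tendsto_const_nhds.sub ?_).const_mul _
      have h1 := ((hφc.tendsto (1 * q t)).comp (hlim.mul_const (q t)))
      rw [one_mul] at h1
      exact h1
    · exact (hφ.cont 1 (by norm_num)).tendsto.comp (tendsto_nhdsWithin_iff.2
        ⟨hlim, Eventually.of_forall fun k => Ioo_subset_Icc_self (hr k)⟩)
  have hnn := ge_of_tendsto hT (Eventually.of_forall fun k => key (r k) (hr k))
  rw [sub_self, mul_zero, add_zero] at hnn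
  have he : swapX n φ f = ∫ t in (0:ℝ)..1, f t ^ (n - 1) * legD f t * (φ' t - φ' (q t)) := by
    refine intervalIntegral.integral_congr_ae ?_
    filter_upwards [Measure.ae_ne volume (1:ℝ)] with t hne ht
    rw [uIoc_of_le zero_le_one] at ht
    have hq' : q t = slope f t := hf.slope1_eq ⟨ht.1, lt_of_le_of_ne ht.2 hne⟩
    rw [hφe t (Ioc_subset_Icc_self ht), hφe (q t) (slope1_mem f t), hq']
  rw [he]
  exact (mul_nonneg_iff_of_pos_left (Nat.cast_pos.2 (by omega))).1 hnn

end

end Vale.Agent.P237.Swap
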