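import Vale.Agent.P237.Gen.Contact.Kappa

/-!
The one-variable constraint of the swap argument, for a kernel `H`, and the special functional of
a kernel `φ a - φ b` with `φ` convex.
-/

namespace Vale.Agent.P237.Swap

open MeasureTheory Set
open Gen.Contact (pw semi)

noncomputable section

/-- The tangent of `f` at `t`, evaluated at `0`. -/
def legD (f : ℝ → ℝ) (t : ℝ) : ℝ := f t - t * deriv f t

/-- The conditional mean of the derivative of the gauge at height `t`. -/
def slope (f : ℝ → ℝ) (t : ℝ) : ℝ := -deriv f t / legD f t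

/-- The swap functional. -/
def swapX (n : ℕ) (φ f : ℝ → ℝ) : ℝ :=
  ∫ t in (0:ℝ)..1, f t ^ (n - 1) * legD f t * (φ t - φ (slope f t))

/-- A profile: nonnegative, continuous, concave and even on `[-1, 1]`, positive at `0`. -/
structure Prof (f : ℝ → ℝ) : Prop where
  conc : ConcaveOn ℝ (Icc (-1 : ℝ) 1) f
  even : ∀ t, f (-t) = f t
  nonneg : ∀ t, 0 ≤ f t
  pos : 0 < f 0
  cont : ContinuousOn f (Icc (-1 : ℝ) 1)

/-- A kernel for the swap argument. -/
structure Kernel (H : ℝ → ℝ → ℝ) : Prop where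
  cont : ContinuousOn (Function.uncurry H) (Icc (-1 : ℝ) 1 ×ˢ Icc (-1 : ℝ) 1)
  even : ∀ a b, H (-a) (-b) = H a b
  swap : ∀ a ∈ Icc (-1 : ℝ) 1, ∀ b ∈ Icc (-1 : ℝ) 1, 0 ≤ H a b + H b a

/-- The profile passes every test dominating the kernel by a function affine in the second
variable. -/
def SwapOK (n : ℕ) (H : ℝ → ℝ → ℝ) (f : ℝ → ℝ) : Prop :=
  ∀ A B : ℝ → ℝ, Measurable A → Measurable B →
    (∃ C, ∀ t ∈ Icc (0 : ℝ) 1, |A t| ≤ C ∧ |B t| ≤ C) →
    (∀ a ∈ Icc (0 : ℝ) 1, ∀ b ∈ Icc (-1 : ℝ) 1, H a b ≤ A a + B a * b) →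
    0 ≤ (n : ℝ) * (∫ t in (0:ℝ)..1, f t ^ (n - 1) * (legD f t * A t - deriv f t * B t)) +
      f 1 ^ n * (A 1 + B 1)

/-- The sharp one-variable inequality for a profile. -/
def SlicePetty (n : ℕ) (f : ℝ → ℝ) : Prop :=
  pw (n - 1) semi ^ n * pw n f ^ (n - 1) ≤ pw (n - 1) f ^ n * pw n semi ^ (n - 1)

/-- The scalar inequality left by the swap argument with a kernel, in slice dimension `n`. -/
def KernelLemma (n : ℕ) (H : ℝ → ℝ → ℝ) : Prop :=
  ∀ f : ℝ → ℝ, Prof f → SwapOK n H f → SlicePetty n f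

/-- The scalar inequality left by the swap argument with a convex test function. -/
def ScalarLemma (n : ℕ) (φ : ℝ → ℝ) : Prop :=
  ∀ f : ℝ → ℝ, Prof f → 0 ≤ swapX n φ f → SlicePetty n f

end

end Vale.Agent.P237.Swap
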