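import Vale.Agent.P237.Swap.Gauge
import Vale.Agent.P237.Swap.Calc

/-!
The joint law of the height `t = ⟪u, x⟫ / gauge K x` and the derivative of the gauge in direction
`v`, through the profile: exact for every bounded measurable function of the height.
-/

namespace Vale.Agent.P237.Swap

open MeasureTheory Set Metric Filter
open scoped RealInnerProductSpace Topology
open Gen.Contact (E Ctr dg ht)

noncomputable section

variable {n : ℕ}

theorem integrable_bdd {α : Type*} [MeasurableSpace α] {μ : Measure α} [IsFiniteMeasure μ]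
    {F : α → ℝ} (hm : Measurable F) {C : ℝ} (hb : ∀ x, |F x| ≤ C) : Integrable F μ :=
  Integrable.of_bound hm.aestronglyMeasurable C (Eventually.of_forall hb)

/-- Equality against polynomials extends to bounded measurable test functions. -/
theorem transfer {α : Type*} [MeasurableSpace α] {μ : Measure α} [IsFiniteMeasure μ] {h g : α → ℝ}
    (hm : Measurable h) (hr : ∀ x, h x ∈ Icc (-1 : ℝ) 1) (gm : Measurable g) (g0 : ∀ x, 0 ≤ g x)
    {B : ℝ} (gB : ∀ x, g x ≤ B) {w : ℝ → ℝ} (wm : Measurable w)
    (wi : IntervalIntegrable w volume (-1) 1)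
    (w0 : ∀ᵐ t ∂volume.restrict (Ioc (-1 : ℝ) 1), 0 ≤ w t) {a b : ℝ} (ha : 0 ≤ a) (hb : 0 ≤ b)
    (hp : ∀ p : Polynomial ℝ, ∫ x, g x * p.eval (h x) ∂μ =
      (∫ t in (-1:ℝ)..1, w t * p.eval t) + a * p.eval 1 + b * p.eval (-1))
    {ψ : ℝ → ℝ} (hψ : Measurable ψ) {C : ℝ} (hC : ∀ t, |ψ t| ≤ C) :
    ∫ x, g x * ψ (h x) ∂μ = (∫ t in (-1:ℝ)..1, w t * ψ t) + a * ψ 1 + b * ψ (-1) := by
  set μ1 : Measure α := μ.withDensity fun x => ENNReal.ofReal (g x) with hμ1
  have hgi : Integrable g μ := integrable_bdd gm fun x => by rw [abs_of_nonneg (g0 x)]; exact gB x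
  haveI : IsFiniteMeasure μ1 := isFiniteMeasure_withDensity_ofReal hgi.2
  set ν : Measure ℝ := Measure.map h μ1 with hν
  set lam : Measure ℝ := (volume.restrict (Ioc (-1 : ℝ) 1)).withDensity fun t => ENNReal.ofReal (w t)
    with hlam
  have hwi : Integrable w (volume.restrict (Ioc (-1 : ℝ) 1)) :=
    (intervalIntegrable_iff_integrableOn_Ioc_of_le (by norm_num)).1 wi
  haveI : IsFiniteMeasure lam := isFiniteMeasure_withDensity_ofReal hwi.2
  set ρ : Measure ℝ := lam + (ENNReal.ofReal a • Measure.dirac 1 + ENNReal.ofReal b • Measure.dirac (-1))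
    with hρ
  haveI : IsFiniteMeasure (ENNReal.ofReal a • Measure.dirac (1:ℝ)) :=
    Measure.smul_finite _ ENNReal.ofReal_ne_top
  haveI : IsFiniteMeasure (ENNReal.ofReal b • Measure.dirac (-1:ℝ)) :=
    Measure.smul_finite _ ENNReal.ofReal_ne_top
  haveI : IsFiniteMeasure ν := by rw [hν]; infer_instance
  have hL : ∀ F : ℝ → ℝ, Measurable F → ∫ y, F y ∂ν = ∫ x, g x * F (h x) ∂μ := fun F hF => by
    rw [hν, integral_map hm.aemeasurable hF.aestronglyMeasurable, hμ1,
      integral_withDensity_eq_integral_toReal_smul (by fun_prop)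
        (Eventually.of_forall fun _ => ENNReal.ofReal_lt_top)]
    refine integral_congr_ae (Eventually.of_forall fun x => ?_)
    simp [ENNReal.toReal_ofReal (g0 x)]
  have hR : ∀ F : ℝ → ℝ, Measurable F → ∀ D, (∀ y, |F y| ≤ D) →
      ∫ y, F y ∂ρ = (∫ t in (-1:ℝ)..1, w t * F t) + a * F 1 + b * F (-1) := fun F hF D hD => by
    have hi : ∀ (m : Measure ℝ) [IsFiniteMeasure m], Integrable F m := fun m _ => integrable_bdd hF hD
    rw [hρ, integral_add_measure (hi _) ((hi _).add_measure (hi _)),
      integral_add_measure (hi _) (hi _), integral_smul_measure, integral_smul_measure,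
      integral_dirac, integral_dirac, hlam, integral_withDensity_eq_integral_toReal_smul (by fun_prop)
        (Eventually.of_forall fun _ => ENNReal.ofReal_lt_top),
      intervalIntegral.integral_of_le (by norm_num), ENNReal.toReal_ofReal ha,
      ENNReal.toReal_ofReal hb, add_assoc]
    congr 1
    refine integral_congr_ae ?_
    filter_upwards [w0] with t ht
    simp [ENNReal.toReal_ofReal ht]
  have heq : ν = ρ := by
    refine ext_of_forall_integral_eq_of_IsFiniteMeasure fun F => eq_of_forall_dist_le fun ε hε => ?_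
    set T := ν.real univ + ρ.real univ + 1 with hT
    have hT0 : 0 < T := by
      have := measureReal_nonneg (μ := ν) (s := univ)
      have := measureReal_nonneg (μ := ρ) (s := univ)
      positivity
    obtain ⟨p, hp'⟩ := exists_polynomial_near_of_continuousOn (-1) 1 F F.continuous.continuousOn
      (ε / T) (by positivity)
    obtain ⟨D, hD⟩ := isCompact_Icc.exists_bound_of_continuousOn
      (p.continuous.continuousOn (s := Icc (-1:ℝ) 1))
    set P : ℝ → ℝ := fun t => p.eval (max (-1) (min 1 t)) with hP
    have hPm : Measurable P := (p.continuous.comp (by fun_prop)).measurable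
    have hPb : ∀ t, |P t| ≤ D := fun t =>
      hD _ ⟨le_max_left _ _, max_le (by norm_num) (min_le_left _ _)⟩
    have hPe : ∀ t ∈ Icc (-1:ℝ) 1, P t = p.eval t := fun t ht => by
      simp only [hP, min_eq_right ht.2, max_eq_right ht.1]
    have h1 : ∫ y, P y ∂ν = ∫ y, P y ∂ρ := by
      have e1 : ∫ y, P y ∂ν = ∫ x, g x * p.eval (h x) ∂μ := by
        rw [hL P hPm]; simp only [hPe _ (hr _)]
      have e2 : ∫ y, P y ∂ρ =
          (∫ t in (-1:ℝ)..1, w t * p.eval t) + a * p.eval 1 + b * p.eval (-1) := by
        rw [hR P hPm D hPb, hPe 1 (by norm_num), hPe (-1) (by norm_num)]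
        congr 2
        refine intervalIntegral.integral_congr fun t ht => ?_
        rw [uIcc_of_le (by norm_num)] at ht
        simp only [hPe t ht]
      rw [e1, e2, hp p]
    have close : ∀ (m : Measure ℝ) [IsFiniteMeasure m], m (Icc (-1:ℝ) 1)ᶜ = 0 →
        |∫ y, F y ∂m - ∫ y, P y ∂m| ≤ ε / T * m.real univ := fun m _ hm0 => by
      rw [← integral_sub (F.integrable m) (integrable_bdd hPm hPb)]
      refine norm_integral_le_of_norm_le_const (f := fun y => F y - P y) ?_
      filter_upwards [show ∀ᵐ y ∂m, y ∈ Icc (-1:ℝ) 1 from hm0] with y hy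
      rw [Real.norm_eq_abs, hPe y hy, abs_sub_comm]
      exact (hp' y hy).le
    have c1 := close ν (by
      rw [hν, Measure.map_apply hm measurableSet_Icc.compl]
      simp [show h ⁻¹' (Icc (-1:ℝ) 1)ᶜ = ∅ from eq_empty_of_forall_notMem fun x hx => hx (hr x)])
    have c2 := close ρ (by
      have : lam (Icc (-1:ℝ) 1)ᶜ = 0 := by
        rw [hlam, withDensity_apply _ measurableSet_Icc.compl, Measure.restrict_restrict measurableSet_Icc.compl]
        simp [show (Icc (-1:ℝ) 1)ᶜ ∩ Ioc (-1:ℝ) 1 = ∅ from
          eq_empty_of_forall_notMem fun x hx => hx.1 (Ioc_subset_Icc_self hx.2)]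
      simp [hρ, this])
    rw [Real.dist_eq]
    have hfin : ε / T * (ν.real univ + ρ.real univ) ≤ ε := by
      rw [div_mul_eq_mul_div, div_le_iff₀ hT0]
      exact mul_le_mul_of_nonneg_left (by rw [hT]; linarith) hε.le
    rw [abs_le] at c1 c2 ⊢
    constructor <;> nlinarith [c1.1, c1.2, c2.1, c2.2, h1]
  rw [← hL ψ hψ, heq, hR ψ hψ C hC]

/-- The hypotheses on one direction: `u` is a supporting functional at `v`, and integrals of
functions of `⟪u, x⟫` over `K` are `d` times those against the `n`-th power of the profile. -/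
structure Dir (n : ℕ) (K : Set (E n)) (u v : E n) (d : ℝ) (f : ℝ → ℝ) : Prop where
  ctr : Ctr K
  inner_eq : ⟪u, v⟫ = 1
  le_one : ∀ x ∈ K, |⟪u, x⟫| ≤ 1
  dg_le : ∀ x, |dg K v x| ≤ 1
  d_pos : 0 < d
  prof : Prof f
  slice : ∀ φ : ℝ → ℝ, Continuous φ →
    ∫ x in K, φ ⟪u, x⟫ = d * ∫ t in (-1:ℝ)..1, φ t * f t ^ n

/-- The density of the height. -/
def w1 (n : ℕ) (f : ℝ → ℝ) (t : ℝ) : ℝ :=
  n * f t ^ n - t * deriv (fun t => f t ^ n) t

/-- The `n`-th power of the profile, made measurable outside the interval. -/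
def powI (n : ℕ) (f : ℝ → ℝ) : ℝ → ℝ := (Ioo (-1 : ℝ) 1).indicator fun t => f t ^ n

theorem Prof.measurable_powI {f : ℝ → ℝ} (hf : Prof f) (n : ℕ) : Measurable (powI n f) := by
  have := ((hf.cont.mono Ioo_subset_Icc_self).pow n).measurable_piecewise
    (g := fun _ => (0:ℝ)) continuousOn_const measurableSet_Ioo
  rw [powI, ← piecewise_eq_indicator]
  exact this

theorem ae_Ioo : ∀ᵐ t ∂volume.restrict (Ioc (-1 : ℝ) 1), t ∈ Ioo (-1 : ℝ) 1 := by
  filter_upwards [ae_restrict_mem measurableSet_Ioc,
    ae_restrict_of_ae (Measure.ae_ne volume (1 : ℝ))] with t ht hne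
  exact ⟨ht.1, lt_of_le_of_ne ht.2 hne⟩

variable {K : Set (E n)} {u v : E n} {d : ℝ} {f : ℝ → ℝ}

/-- The two identities, for bounded measurable functions of the height. -/
theorem Dir.identities (hn : 1 ≤ n) (h : Dir n K u v d f) {ψ : ℝ → ℝ} (hψ : Measurable ψ) {C : ℝ}
    (hC : ∀ t, |ψ t| ≤ C) :
    ((n : ℝ) + 1) * ∫ x in K, ψ (ht K u x) =
        d * ((∫ t in (-1:ℝ)..1, w1 n f t * ψ t) + top n f * (ψ 1 + ψ (-1))) ∧
      ((n : ℝ) + 1) * ∫ x in K, dg K v x * ψ (ht K u x) =
        d * ((∫ t in (-1:ℝ)..1, -deriv (fun t => f t ^ n) t * ψ t) +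
          top n f * (ψ 1 - ψ (-1))) := by
  haveI : IsFiniteMeasure (volume.restrict K) :=
    ⟨by rw [Measure.restrict_apply_univ]; exact h.ctr.compact.measure_lt_top⟩
  set F : ℝ → ℝ := fun t => f t ^ n with hF
  set N : ℝ := (n : ℝ) + 1 with hN
  have hN0 : 0 < N := by positivity
  have hhm : Measurable (ht K u) :=
    (continuous_const.inner continuous_id).measurable.div h.ctr.continuous_gauge.measurable
  have hhr := Gen.Contact.ht_mem_Icc h.ctr h.le_one
  have hdm := Gen.Contact.measurable_dg K v
  have hdF : IntervalIntegrable (deriv F) volume (-1) 1 := h.prof.integrable_deriv_pow n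
  set W : ℝ → ℝ := fun t => n * powI n f t - t * deriv F t with hW
  have hWm : Measurable W :=
    ((h.prof.measurable_powI n).const_mul _).sub (measurable_id.mul (measurable_deriv F))
  have hWe : ∀ᵐ t ∂volume.restrict (Ioc (-1 : ℝ) 1), W t = w1 n f t := by
    filter_upwards [ae_Ioo] with t ht
    simp [hW, w1, powI, hF, indicator_of_mem ht]
  have hw1i : IntervalIntegrable (w1 n f) volume (-1) 1 :=
    ((h.prof.integrable_pow n).const_mul _).sub (hdF.continuousOn_mul continuousOn_id)
  have hWi : IntervalIntegrable W volume (-1) 1 := by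
    refine hw1i.congr_ae ?_
    rw [uIoc_of_le (by norm_num)]
    exact hWe.mono fun t e => e.symm
  have hsign : ∀ᵐ t ∂volume.restrict (Ioc (-1 : ℝ) 1), |deriv F t| ≤ W t := by
    filter_upwards [ae_Ioo, hWe, ae_restrict_of_ae (h.prof.deriv_pow_ae n)] with t ht e e2
    rw [e, w1]
    rw [hF, e2 ht, abs_mul, abs_of_nonneg (mul_nonneg (Nat.cast_nonneg n) (pow_nonneg (h.prof.nonneg t) _))]
    have hb := h.prof.abs_deriv_le ht
    rw [legD] at hb
    have hp : f t ^ n = f t ^ (n - 1) * f t := by rw [← pow_succ, Nat.sub_add_cancel hn]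
    rw [hp]
    have := mul_le_mul_of_nonneg_left hb
      (mul_nonneg (Nat.cast_nonneg (α := ℝ) n) (pow_nonneg (h.prof.nonneg t) (n - 1)))
    linarith
  have htop := h.prof.top_nonneg n
  -- polynomial case
  have hpoly : ∀ p : Polynomial ℝ,
      N * (∫ x in K, p.eval (ht K u x)) =
          d * ((∫ t in (-1:ℝ)..1, W t * p.eval t) + top n f * (p.eval 1 + p.eval (-1))) ∧
        N * (∫ x in K, dg K v x * p.eval (ht K u x)) =
          d * ((∫ t in (-1:ℝ)..1, -deriv F t * p.eval t) + top n f * (p.eval 1 - p.eval (-1))) := by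
    intro p
    have hp2 : ContDiff ℝ 2 fun t => p.eval t := by simpa using Polynomial.contDiff_aeval (𝕜 := ℝ) p _
    have hp1 : ContDiff ℝ 1 fun t => p.eval t := by simpa using Polynomial.contDiff_aeval (𝕜 := ℝ) p _
    have hpc := p.continuous
    have hpd : Continuous (deriv fun t => p.eval t) := hp1.continuous_deriv (by simp)
    constructor
    · have e := Gen.Contact.integral_ht h.ctr h.le_one (F := fun _ => (1:ℝ)) measurable_const
        (B := 1) (fun _ => by simp) (fun _ _ _ => rfl) (ψ := fun t => p.eval t) hp1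
      simp only [one_mul] at e
      rw [e, h.slice (fun t => p.eval t + t * deriv (fun t => p.eval t) t / ((n:ℝ) + 1)) (hpc.add ((continuous_id.mul hpd).div_const _))]
      have hq : ContDiff ℝ 1 fun t => t * p.eval t := contDiff_id.mul hp1
      have hib := h.prof.ibp n hq
      have hdq : ∀ t, deriv (fun t => t * p.eval t) t = p.eval t + t * deriv (fun t => p.eval t) t :=
        fun t => by
          refine ((hasDerivAt_id t).mul (hp1.differentiable (by simp) t).hasDerivAt).deriv.trans ?_
          simp
      simp only [hdq] at hib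
      have eW : ∫ t in (-1:ℝ)..1, W t * p.eval t = ∫ t in (-1:ℝ)..1, w1 n f t * p.eval t := by
        refine intervalIntegral.integral_congr_ae_restrict ?_
        rw [uIoc_of_le (by norm_num)]
        filter_upwards [hWe] with t e using by rw [e]
      have i1 : IntervalIntegrable (fun t => (n:ℝ) * (p.eval t * F t)) volume (-1) 1 :=
        ((h.prof.integrable_pow n).continuousOn_mul hpc.continuousOn).const_mul _
      have i2 : IntervalIntegrable (fun t => t * p.eval t * deriv F t) volume (-1) 1 :=
        hdF.continuousOn_mul (continuous_id.mul hpc).continuousOn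
      have i3 : IntervalIntegrable (fun t => (p.eval t + t * deriv (fun t => p.eval t) t) * F t)
          volume (-1) 1 := (h.prof.integrable_pow n).continuousOn_mul
            (hpc.add (continuous_id.mul hpd)).continuousOn
      have e2 : ∫ t in (-1:ℝ)..1, w1 n f t * p.eval t =
          (n:ℝ) * (∫ t in (-1:ℝ)..1, p.eval t * F t) - ∫ t in (-1:ℝ)..1, t * p.eval t * deriv F t := by
        rw [← intervalIntegral.integral_const_mul, ← intervalIntegral.integral_sub i1 i2]
        refine intervalIntegral.integral_congr fun t _ => ?_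
        simp only [w1, hF]; ring
      have e3 : N * ∫ t in (-1:ℝ)..1,
          (p.eval t + t * deriv (fun t => p.eval t) t / ((n:ℝ) + 1)) * F t =
          (n:ℝ) * (∫ t in (-1:ℝ)..1, p.eval t * F t) +
            ∫ t in (-1:ℝ)..1, (p.eval t + t * deriv (fun t => p.eval t) t) * F t := by
        rw [← intervalIntegral.integral_const_mul, ← intervalIntegral.integral_const_mul,
          ← intervalIntegral.integral_add i1 i3]
        refine intervalIntegral.integral_congr fun t _ => ?_
        simp only [hN]; field_simp; ring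
      rw [eW, e2, mul_left_comm, e3]
      simp only [hF] at hib ⊢
      linear_combination d * hib
    · have e := integral_dg_ht h.ctr h.inner_eq h.le_one hp2
      rw [hN, e, h.slice _ hpd]
      have hib := h.prof.ibp n hp1
      simp only [neg_mul, intervalIntegral.integral_neg]
      rw [intervalIntegral.integral_congr (g := fun t => p.eval t * deriv F t)
        fun t _ => mul_comm _ _]
      simp only [hF] at hib ⊢
      linear_combination d * hib
  -- transfer
  have hint : ∀ (p : ℝ → ℝ), Measurable p → ∀ D, (∀ t, |p t| ≤ D) →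
      IntegrableOn (fun x => p (ht K u x)) K ∧
        IntegrableOn (fun x => dg K v x * p (ht K u x)) K := fun p hp D hD =>
    ⟨integrable_bdd (hp.comp hhm) fun x => hD _,
      integrable_bdd (hdm.mul (hp.comp hhm)) fun x => by
        rw [abs_mul]
        exact (mul_le_mul (h.dg_le x) (hD _) (abs_nonneg _) zero_le_one).trans (one_mul _).le⟩
  have T1 := transfer (μ := volume.restrict K) hhm hhr (g := fun _ => N / d) measurable_const
    (fun _ => (div_pos hN0 h.d_pos).le) (B := N / d) (fun _ => le_rfl) hWm hWi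
    (hsign.mono fun t ht => (abs_nonneg _).trans ht) htop htop
    (fun p => by
      rw [integral_const_mul, div_mul_eq_mul_div, div_eq_iff h.d_pos.ne', (hpoly p).1]
      ring) hψ hC
  have T2 := transfer (μ := volume.restrict K) hhm hhr (g := fun x => N / d * (1 + dg K v x))
    ((measurable_const.add hdm).const_mul _)
    (fun x => mul_nonneg (div_pos hN0 h.d_pos).le (by linarith [(abs_le.1 (h.dg_le x)).1]))
    (B := N / d * 2)
    (fun x => mul_le_mul_of_nonneg_left (by linarith [(abs_le.1 (h.dg_le x)).2])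
      (div_pos hN0 h.d_pos).le)
    (w := fun t => W t - deriv F t) (hWm.sub (measurable_deriv F)) (hWi.sub hdF)
    (hsign.mono fun t ht => by linarith [le_abs_self (deriv F t)])
    (a := 2 * top n f) (b := 0) (by linarith) le_rfl
    (fun p => by
      obtain ⟨h1, h2⟩ := hpoly p
      obtain ⟨D, hD⟩ := isCompact_Icc.exists_bound_of_continuousOn
        (p.continuous.continuousOn (s := Icc (-1:ℝ) 1))
      have j1 : IntegrableOn (fun x => p.eval (ht K u x)) K :=
        integrable_bdd (p.continuous.measurable.comp hhm) fun x => hD _ (hhr x)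
      have j2 : IntegrableOn (fun x => dg K v x * p.eval (ht K u x)) K :=
        integrable_bdd (hdm.mul (p.continuous.measurable.comp hhm)) fun x => by
          rw [abs_mul]
          exact (mul_le_mul (h.dg_le x) (hD _ (hhr x)) (abs_nonneg _) zero_le_one).trans
            (one_mul _).le
      simp only [mul_assoc, add_mul, one_mul, sub_mul]
      rw [integral_const_mul, integral_add j1 j2,
        intervalIntegral.integral_sub (hWi.mul_continuousOn p.continuous.continuousOn)
          (hdF.mul_continuousOn p.continuous.continuousOn)]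
      simp only [neg_mul, intervalIntegral.integral_neg] at h2
      rw [div_mul_eq_mul_div, div_eq_iff h.d_pos.ne']
      linear_combination h1 + h2) hψ hC
  obtain ⟨k1, k2⟩ := hint ψ hψ C hC
  have eW : ∫ t in (-1:ℝ)..1, W t * ψ t = ∫ t in (-1:ℝ)..1, w1 n f t * ψ t := by
    refine intervalIntegral.integral_congr_ae_restrict ?_
    rw [uIoc_of_le (by norm_num)]
    filter_upwards [hWe] with t e using by rw [e]
  have R1 : N * ∫ x in K, ψ (ht K u x) =
      d * ((∫ t in (-1:ℝ)..1, W t * ψ t) + top n f * (ψ 1 + ψ (-1))) := by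
    rw [integral_const_mul, div_mul_eq_mul_div, div_eq_iff h.d_pos.ne'] at T1
    linear_combination T1
  refine ⟨by rw [R1, eW], ?_⟩
  have wψ : ∀ g : ℝ → ℝ, IntervalIntegrable g volume (-1) 1 →
      IntervalIntegrable (fun t => g t * ψ t) volume (-1) 1 := fun g hg => by
    rw [intervalIntegrable_iff] at hg ⊢
    exact hg.mul_bdd hψ.aestronglyMeasurable (Eventually.of_forall fun t => hC t)
  simp only [mul_assoc, add_mul, one_mul, sub_mul] at T2
  rw [integral_const_mul, integral_add k1 k2, intervalIntegral.integral_sub (wψ W hWi) (wψ _ hdF),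
    div_mul_eq_mul_div, div_eq_iff h.d_pos.ne'] at T2
  simp only [neg_mul, intervalIntegral.integral_neg]
  linear_combination T2 - R1

end

end Vale.Agent.P237.Swap
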