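import Vale.Agent.P237.Swap.Tight
import Vale.Agent.P237.Swap.Dist

/-!
A direction with elliptical profile: its second moment is that of the ball and the kernel has
nonpositive average.
-/

namespace Vale.Agent.P237.Swap

open MeasureTheory Set Metric Filter
open scoped RealInnerProductSpace Topology
open Gen.Contact (E Ctr dg ht pw semi)

noncomputable section

variable {n : ℕ}

theorem semi_pos {t : ℝ} (ht : t ∈ Ioo (-1 : ℝ) 1) : 0 < semi t :=
  Real.sqrt_pos.2 (by nlinarith [ht.1, ht.2])

theorem semi_sq {t : ℝ} (ht : t ∈ Icc (-1 : ℝ) 1) : semi t ^ 2 = 1 - t ^ 2 :=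
  Real.sq_sqrt (by nlinarith [ht.1, ht.2])

theorem semi_neg (t : ℝ) : semi (-t) = semi t := by simp [semi]

theorem hasDerivAt_semi {t : ℝ} (ht : t ∈ Ioo (-1 : ℝ) 1) :
    HasDerivAt semi (-t / semi t) t := by
  have h1 : HasDerivAt (fun t : ℝ => 1 - t ^ 2) (-(2 * t)) t := by
    simpa using (hasDerivAt_pow 2 t).const_sub 1
  refine (h1.sqrt (ne_of_gt (by nlinarith [ht.1, ht.2]))).congr_deriv ?_
  have := (semi_pos ht).ne'
  simp only [semi] at *
  field_simp

/-- The second moment of the semicircle power. -/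
theorem integral_sq_semi (n : ℕ) :
    ((n : ℝ) + 3) * ∫ t in (0:ℝ)..1, t ^ 2 * semi t ^ n = pw n semi := by
  have hc : Continuous semi := by unfold semi; fun_prop
  have hd : ∀ t ∈ Ioo (0:ℝ) 1, HasDerivAt (fun t => t * semi t ^ (n + 2))
      (semi t ^ n - ((n : ℝ) + 3) * (t ^ 2 * semi t ^ n)) t := by
    intro t ht
    have ht' : t ∈ Ioo (-1 : ℝ) 1 := ⟨by linarith [ht.1], ht.2⟩
    refine ((hasDerivAt_id t).mul ((hasDerivAt_semi ht').fun_pow (n + 2))).congr_deriv ?_
    have h := (semi_pos ht').ne'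
    have h2 := semi_sq (Ioo_subset_Icc_self ht')
    rw [show n + 2 - 1 = n + 1 from rfl, pow_add, h2, pow_succ, id_eq]
    push_cast
    field_simp
    ring
  have h := intervalIntegral.integral_eq_sub_of_hasDerivAt_of_le zero_le_one
    (f := fun t => t * semi t ^ (n + 2)) (by fun_prop) hd
    ((by fun_prop : Continuous fun t => semi t ^ n - ((n : ℝ) + 3) * (t ^ 2 * semi t ^ n)).intervalIntegrable _ _)
  rw [intervalIntegral.integral_sub ((by fun_prop : Continuous fun t => semi t ^ n).intervalIntegrable _ _)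
    ((by fun_prop : Continuous fun t => ((n : ℝ) + 3) * (t ^ 2 * semi t ^ n)).intervalIntegrable _ _),
    intervalIntegral.integral_const_mul] at h
  have h1 : semi 1 = 0 := by simp [semi]
  rw [h1, zero_pow (by omega), mul_zero, zero_mul, sub_zero] at h
  rw [pw]
  linarith

variable {K : Set (E n)} {u v : E n} {d : ℝ} {f : ℝ → ℝ}

/-- An elliptical profile has the second moment of the ball. -/
theorem Dir.moment_semi (h : Dir n K u v d f) {c : ℝ} (hf : ∀ t ∈ Icc (0 : ℝ) 1, f t = c * semi t) :
    ((n : ℝ) + 3) * ∫ x in K, ⟪u, x⟫ ^ 2 = volume.real K := by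
  have key : ∀ φ : ℝ → ℝ, Continuous φ → (∀ t, φ (-t) = φ t) →
      ∫ x in K, φ ⟪u, x⟫ = d * (2 * c ^ n * ∫ t in (0:ℝ)..1, φ t * semi t ^ n) := by
    intro φ hφ he
    rw [h.slice φ hφ]
    congr 1
    have i1 := (h.prof.integrable_pow n).continuousOn_mul hφ.continuousOn
    have h0 : (0 : ℝ) ∈ uIcc (-1 : ℝ) 1 := by rw [uIcc_of_le (by norm_num)]; norm_num
    rw [← intervalIntegral.integral_add_adjacent_intervals
      (i1.mono_set (uIcc_subset_uIcc left_mem_uIcc h0))
      (i1.mono_set (uIcc_subset_uIcc h0 right_mem_uIcc))]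
    have e := intervalIntegral.integral_comp_neg (f := fun t => φ t * f t ^ n) (a := (0:ℝ)) (b := 1)
    simp only [neg_zero, h.prof.even, he] at e
    rw [← e, mul_assoc, ← intervalIntegral.integral_const_mul, ← two_mul]
    congr 1
    refine intervalIntegral.integral_congr fun t ht => ?_
    rw [uIcc_of_le zero_le_one] at ht
    simp only [hf t ht, mul_pow]
    ring
  have hV := key (fun _ => 1) continuous_const fun _ => rfl
  simp only [setIntegral_const, smul_eq_mul, mul_one, one_mul] at hV
  rw [key (fun t => t ^ 2) (continuous_pow 2) fun t => neg_sq t, hV,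
    show (∫ t in (0:ℝ)..1, semi t ^ n) = pw n semi from rfl, ← integral_sq_semi n]
  ring

/-- A kernel with small tests at `b = a` averages to at most `0` on an elliptical profile. -/
theorem Dir.kernel_semi (hn : 2 ≤ n) (h : Dir n K u v d f) {H : ℝ → ℝ → ℝ} (hH : Kernel H)
    (hT : Tight H) {c : ℝ} (hf : ∀ t ∈ Icc (0 : ℝ) 1, f t = c * semi t) :
    ∫ x in K, H (ht K u x) (dg K v x) ≤ 0 := by
  have hc : 0 < c := by
    have := h.prof.pos
    rw [hf 0 (by norm_num)] at this
    simpa [semi] using this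
  set I := ∫ t in (0:ℝ)..1, semi t ^ (n - 2) with hI
  set M := 2 * d * (n * (c ^ n * I)) with hM
  set J := ∫ x in K, H (ht K u x) (dg K v x) with hJ
  suffices H' : ∀ ε : ℝ, 0 < ε → ((n : ℝ) + 1) * J ≤ M * ε by
    have hlim : Tendsto (fun ε => M * ε) (𝓝[>] (0:ℝ)) (𝓝 0) :=
      ((continuous_const.mul continuous_id).tendsto' 0 0 (mul_zero M)).mono_left nhdsWithin_le_nhds
    have h0 := ge_of_tendsto hlim (eventually_nhdsWithin_of_forall H')
    exact nonpos_of_mul_nonpos_right h0 (by positivity)
  intro ε hε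
  obtain ⟨A, B, hA, hB, hbd, hdom, hsmall⟩ := hT ε hε
  refine (h.kernel_le (by omega) hH hA hB hbd hdom).trans ?_
  have h1 : f 1 ^ n = 0 := by
    rw [hf 1 (by norm_num), show semi 1 = 0 by simp [semi], mul_zero, zero_pow (by omega)]
  rw [h1, zero_mul, add_zero, hM, mul_assoc (2 * d)]
  refine mul_le_mul_of_nonneg_left ?_ (by linarith [h.d_pos])
  rw [mul_assoc]
  refine mul_le_mul_of_nonneg_left ?_ (Nat.cast_nonneg n)
  obtain ⟨C, hC⟩ := hbd
  have hg : Continuous fun t => c ^ n * semi t ^ (n - 2) := by unfold semi; fun_prop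
  have hint : IntervalIntegrable (fun t => c ^ n * semi t ^ (n - 2) * (A t + t * B t)) volume 0 1 := by
    have h0 := hg.intervalIntegrable (μ := volume) (0:ℝ) 1
    rw [intervalIntegrable_iff] at h0 ⊢
    refine h0.mul_bdd (c := C + C) (hA.add (measurable_id.mul hB)).aestronglyMeasurable ?_
    rw [uIoc_of_le zero_le_one]
    filter_upwards [ae_restrict_mem measurableSet_Ioc] with t ht
    obtain ⟨h1, h2⟩ := hC t (Ioc_subset_Icc_self ht)
    refine (abs_add_le _ _).trans (add_le_add h1 ?_)
    rw [abs_mul, abs_of_pos ht.1]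
    exact (mul_le_of_le_one_left (abs_nonneg _) ht.2).trans h2
  calc ∫ t in (0:ℝ)..1, f t ^ (n - 1) * (legD f t * A t - deriv f t * B t)
      = ∫ t in (0:ℝ)..1, c ^ n * semi t ^ (n - 2) * (A t + t * B t) := by
        refine intervalIntegral.integral_congr_ae ?_
        filter_upwards [Measure.ae_ne volume (1:ℝ)] with t hne ht
        rw [uIoc_of_le zero_le_one] at ht
        have ht1 : t < 1 := lt_of_le_of_ne ht.2 hne
        have ht' : t ∈ Ioo (-1 : ℝ) 1 := ⟨by linarith [ht.1], ht1⟩
        have hd : HasDerivAt f (c * (-t / semi t)) t := by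
          refine ((hasDerivAt_semi ht').const_mul c).congr_of_eventuallyEq ?_
          filter_upwards [Ioo_mem_nhds ht.1 ht1] with s hs
          exact hf s (Ioo_subset_Icc_self hs)
        have hs := semi_pos ht'
        have hs2 := semi_sq (Ioo_subset_Icc_self ht')
        rw [legD, hd.deriv, hf t (Ioc_subset_Icc_self ht)]
        obtain ⟨m, rfl⟩ : ∃ m, n = m + 2 := ⟨n - 2, by omega⟩
        rw [show m + 2 - 1 = m + 1 from rfl, Nat.add_sub_cancel, mul_pow, pow_succ (semi t)]
        field_simp
        rw [hs2]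
        ring
    _ ≤ ∫ t in (0:ℝ)..1, c ^ n * semi t ^ (n - 2) * ε := by
        refine intervalIntegral.integral_mono_on zero_le_one hint
          ((hg.mul continuous_const).intervalIntegrable _ _) fun t ht => ?_
        exact mul_le_mul_of_nonneg_left (hsmall t ht)
          (mul_nonneg (pow_nonneg hc.le n) (pow_nonneg (Real.sqrt_nonneg _) _))
    _ = c ^ n * I * ε := by
        rw [intervalIntegral.integral_mul_const, intervalIntegral.integral_const_mul]

end

end Vale.Agent.P237.Swap
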