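import Vale.Agent.P237.Swap.Main
import Vale.Agent.P237.Swap.Semi
import Vale.Agent.P237.Gen.Equality.Euclid

/-!
The equality case of the swap argument: if no direction beats the sharp slice functional, almost
every supporting direction has an elliptical profile, so every contact point of John's position has
the second moment of the ball and the body is the ball.
-/

namespace Vale.Agent.P237.Swap

open MeasureTheory Set Metric Filter
open scoped RealInnerProductSpace Topology Pointwise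
open Gen.Contact (E Ctr InJohn dg ht coords slArea pw semi)
open Gen.Eq (bal)
open Every (kappa)

noncomputable section

variable {n : ℕ}

/-- No direction beats the sharp slice functional. -/
def SliceTop (n : ℕ) (K : Set (E n)) : Prop :=
  ∀ (b : OrthonormalBasis (Fin (n + 1)) ℝ (E n)) (h : ℝ), 0 < h →
    (∀ x ∈ K, |⟪b 0, x⟫| ≤ h) →
    (∫ t, slArea K b t ^ (((n : ℝ) - 1) / n)) ^ n ≤
      Gen.pcN (n + 1) / Gen.pcN n * volume.real K ^ (n - 1) * h

/-- Then a direction passing the swap constraint has an elliptical profile. -/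
theorem semi_of_top (hn : 2 ≤ n) {H : ℝ → ℝ → ℝ} (hH : Kernel H) (hE : KernelEq n H) {K : Set (E n)}
    (hK : Ctr K) (hs : ∀ x ∈ K, -x ∈ K) (htop : SliceTop n K) {u v : E n} (hp : Pair K u v)
    (hJ : 0 ≤ ∫ x in K, H (ht K u x) (dg K v x)) :
    ∃ (d : ℝ) (f : ℝ → ℝ) (c : ℝ), Dir n K u v d f ∧ ∀ t ∈ Icc (0 : ℝ) 1, f t = c * semi t := by
  obtain ⟨b, h, f, hh, hb, hd, hV, hG⟩ := exists_dir hn hK hs hp
  have hle := htop b h hh hb
  rw [hV, hG, Gen.Contact.pcN_ratio hn] at hle
  have hκ := Gen.kappa_pos n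
  have hκe : (kappa n ^ (((n : ℝ) - 1) / n)) ^ n = kappa n ^ (n - 1) := by
    rw [← Real.rpow_natCast, ← Real.rpow_mul hκ.le, div_mul_cancel₀ _ (by positivity),
      ← Nat.cast_one, ← Nat.cast_sub (by omega), Real.rpow_natCast]
  simp only [mul_pow] at hle
  rw [hκe, ← pow_sub_one_mul (show n ≠ 0 by omega) (2 : ℝ),
    ← pow_sub_one_mul (show n ≠ 0 by omega) h, div_mul_eq_mul_div, div_mul_eq_mul_div,
    le_div_iff₀ (pow_pos (Gen.Contact.pw_semi_pos n) _)] at hle
  have hc : 0 < 2 ^ (n - 1) * 2 * kappa n ^ (n - 1) * (h ^ (n - 1) * h) := by positivity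
  obtain ⟨c, hf⟩ := hE f hd.prof (hd.swapOK (by omega) hH hJ) (le_of_mul_le_mul_left (by linarith) hc)
  exact ⟨_, f, c, hd, hf⟩

/-- Then almost every supporting direction has the second moment of the ball. -/
theorem moment_ae (hn : 2 ≤ n) {H : ℝ → ℝ → ℝ} (hH : Kernel H) (hT : Tight H) (hE : KernelEq n H)
    {K : Set (E n)} (hK : Ctr K) (hs : ∀ x ∈ K, -x ∈ K) (htop : SliceTop n K) :
    ∀ᵐ x ∂volume.restrict K,
      ((n : ℝ) + 3) * ∫ y in K, ⟪polar K x, y⟫ ^ 2 = volume.real K := by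
  obtain ⟨hP, hi, h0⟩ := avg_facts hH hK hs
  have hkey : ∀ᵐ x ∂volume.restrict K, avg H K x ≤ 0 ∧
      (0 ≤ avg H K x → ((n : ℝ) + 3) * ∫ y in K, ⟪polar K x, y⟫ ^ 2 = volume.real K) := by
    filter_upwards [hP] with x hp
    by_cases hJ : 0 ≤ avg H K x
    · obtain ⟨d, f, c, hd, hf⟩ := semi_of_top hn hH hE hK hs htop hp hJ
      exact ⟨hd.kernel_semi hn hH hT hf, fun _ => hd.moment_semi hf⟩
    · exact ⟨(not_le.1 hJ).le, fun h => absurd h hJ⟩
  have hz : ∫ x in K, avg H K x = 0 :=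
    le_antisymm (integral_nonpos_of_ae (hkey.mono fun _ h => h.1)) h0
  have := (integral_eq_zero_iff_of_nonneg_ae (hkey.mono fun x hx => neg_nonneg.2 hx.1) hi.neg).1
    (by rw [integral_neg, hz, neg_zero])
  filter_upwards [hkey, this] with x h1 h2
  simp only [Pi.zero_apply, neg_eq_zero] at h2
  exact h1.2 h2.ge

/-- A contact point of the unit ball is a limit of supporting directions. -/
theorem contact_mem_closure {K : Set (E n)} (hK : Ctr K) (hs : ∀ x ∈ K, -x ∈ K) {P : E n → Prop}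
    (hP : ∀ᵐ x ∂volume.restrict K, P (polar K x)) {v : E n} (hv : ‖v‖ = 1)
    (hle : ∀ x ∈ K, |⟪v, x⟫| ≤ 1) : v ∈ closure {u | P u} := by
  have hv0 : v ≠ 0 := norm_pos_iff.1 (by rw [hv]; exact one_pos)
  have hg : gauge K v = 1 := by
    refine le_antisymm ((hK.gauge_le_norm v).trans hv.le) ?_
    have h := Gen.Contact.abs_ht_le hK hle v
    rw [real_inner_self_eq_norm_sq, hv, one_pow, abs_one] at h
    linarith
  have hw : (2 : ℝ)⁻¹ • v ≠ 0 := smul_ne_zero (by norm_num) hv0
  have hf : foot K ((2 : ℝ)⁻¹ • v) = v := by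
    rw [foot, gauge_smul_of_nonneg (by norm_num), hg, smul_smul]
    norm_num
  have hcont : ContinuousAt (foot K) ((2 : ℝ)⁻¹ • v) :=
    ((hK.continuous_gauge.continuousAt).inv₀ (hK.gauge_pos hw).ne').smul continuousAt_id
  rw [Metric.mem_closure_iff]
  intro ε hε
  obtain ⟨δ, hδ, hδ'⟩ := Metric.continuousAt_iff.1 hcont (ε ^ 2 / 2) (by positivity)
  set B := ball ((2 : ℝ)⁻¹ • v) (min δ (1 / 2)) with hB
  have hBK : B ⊆ K := fun x hx => hK.ball (by
    rw [mem_closedBall_zero_iff]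
    have h1 : ‖x - (2 : ℝ)⁻¹ • v‖ < 1 / 2 := (mem_ball_iff_norm.1 hx).trans_le (min_le_right _ _)
    have h2 : ‖(2 : ℝ)⁻¹ • v‖ = 1 / 2 := by rw [norm_smul, hv]; norm_num
    linarith [norm_le_norm_add_norm_sub' x ((2 : ℝ)⁻¹ • v)])
  have hgood : ∀ᵐ x ∂volume.restrict B, P (polar K x) ∧ DifferentiableAt ℝ (gauge K) x ∧ x ≠ 0 :=
    (ae_restrict_of_ae_restrict_of_subset hBK hP).and
      (ae_restrict_of_ae (hK.lipschitz.ae_differentiableAt.and (Measure.ae_ne volume (0 : E n))))
  haveI : NeBot (ae (volume.restrict B)) := ae_neBot.2 fun h => by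
    rw [Measure.restrict_eq_zero] at h
    exact (measure_ball_pos volume _ (lt_min hδ (by norm_num))).ne' h
  obtain ⟨x, ⟨hPx, hd, hne⟩, hxB⟩ := (hgood.and (ae_restrict_mem measurableSet_ball)).exists
  refine ⟨polar K x, hPx, ?_⟩
  have hn1 : ‖polar K x‖ ≤ 1 := by
    rw [polar, LinearIsometryEquiv.norm_map]
    exact hK.norm_fderiv_le x
  have h1 : 1 - ε ^ 2 / 2 < ⟪polar K x, v⟫ := by
    have hd1 : ⟪polar K x, foot K x⟫ = 1 := (pair_of_differentiableAt hK hs hd hne).inner_eq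
    have hclose : ‖v - foot K x‖ < ε ^ 2 / 2 := by
      rw [← dist_eq_norm]
      have := hδ' (show dist x ((2 : ℝ)⁻¹ • v) < δ from hxB.trans_le (min_le_left _ _))
      rwa [hf, dist_comm] at this
    have h3 := abs_real_inner_le_norm (polar K x) (v - foot K x)
    rw [inner_sub_right, hd1, abs_le] at h3
    nlinarith [norm_nonneg (v - foot K x), norm_nonneg (polar K x)]
  have h2 : ‖v - polar K x‖ ^ 2 < ε ^ 2 := by
    rw [norm_sub_sq_real, hv, real_inner_comm]
    nlinarith [norm_nonneg (polar K x)]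
  rw [dist_eq_norm]
  exact lt_of_pow_lt_pow_left₀ 2 hε.le h2

/-- A body in John position none of whose directions beats the sharp slice functional has the
volume of the ball. -/
theorem volume_eq_of_top (hn : 2 ≤ n) {H : ℝ → ℝ → ℝ} (hH : Kernel H) (hT : Tight H)
    (hE : KernelEq n H) {K : Set (E n)} (hJ : InJohn K) (htop : SliceTop n K) :
    volume.real K = kappa (n + 1) := by
  obtain ⟨m, c, u, hc0, hcsum, hu1, huK, hdec⟩ := hJ.contacts
  have hK := hJ.toCtr
  set V := volume.real K with hV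
  have hcont : Continuous fun w : E n => ((n : ℝ) + 3) * ∫ y in K, ⟪w, y⟫ ^ 2 :=
    continuous_const.mul (continuous_parametric_integral_of_continuous
      (by fun_prop : Continuous fun p : E n × E n => ⟪p.1, p.2⟫ ^ 2) hK.compact)
  have hM : ∀ i, ((n : ℝ) + 3) * ∫ y in K, ⟪u i, y⟫ ^ 2 = V := fun i =>
    (isClosed_eq hcont continuous_const).closure_subset (contact_mem_closure hK hJ.symm
      (P := fun w => ((n : ℝ) + 3) * ∫ y in K, ⟪w, y⟫ ^ 2 = V)
      (moment_ae hn hH hT hE hK hJ.symm htop) (hu1 i) (huK i))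
  have hnorm : ∀ z : E n, ‖z‖ ^ 2 = ∑ i, c i * ⟪u i, z⟫ ^ 2 := fun z => by
    have h : ⟪∑ i, (c i * ⟪u i, z⟫) • u i, z⟫ = ‖z‖ ^ 2 := by
      rw [hdec z, real_inner_self_eq_norm_sq]
    rw [← h]
    simp only [sum_inner, real_inner_smul_left]
    exact Finset.sum_congr rfl fun i _ => by ring
  have hsum : ((n : ℝ) + 3) * ∫ z in K, ‖z‖ ^ 2 = ((n : ℝ) + 1) * V := by
    simp only [hnorm]
    rw [integral_finsetSum _ fun i _ =>
      (by fun_prop : Continuous fun z : E n => c i * ⟪u i, z⟫ ^ 2).continuousOn.integrableOn_compact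
        hK.compact, Finset.mul_sum, ← hcsum, Finset.sum_mul]
    refine Finset.sum_congr rfl fun i _ => ?_
    rw [integral_const_mul, ← hM i]
    ring
  have hk := Gen.kappa_pos (n + 1)
  have hVk : kappa (n + 1) ≤ V := by
    have h := measureReal_mono (μ := volume) hK.ball hK.compact.measure_lt_top.ne
    rwa [Gen.Eq.kappa_closed] at h
  refine le_antisymm (not_lt.1 fun hlt => ?_) hVk
  have h := mul_le_mul_of_nonneg_left (Gen.Contact.moment_ge hK) (show (0:ℝ) ≤ (n : ℝ) + 3 by positivity)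
  rw [hsum] at h
  set ρ := (V / kappa (n + 1)) ^ (2 / ((n : ℝ) + 1)) with hρ
  have hρ1 : 1 < ρ := Real.one_lt_rpow ((one_lt_div hk).2 hlt) (by positivity)
  have hV0 : 0 < V := hk.trans_le hVk
  have e : ((n : ℝ) + 3) * (((n : ℝ) + 1) / (n + 3) * ρ * V) = ((n : ℝ) + 1) * V * ρ := by
    field_simp
  rw [e] at h
  nlinarith [mul_pos (show (0:ℝ) < (n : ℝ) + 1 by positivity) hV0]

/-- A body none of whose slice functionals beats the sharp one is an ellipsoid. -/
theorem sliceEq_of_kernel (hn : 2 ≤ n) {H : ℝ → ℝ → ℝ} (hH : Kernel H) (hT : Tight H)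
    (hE : KernelEq n H) : Gen.Eq.SliceEq n (Gen.pcN (n + 1) / Gen.pcN n) := by
  intro X hX hs hall
  obtain ⟨A, hJ⟩ := Gen.Contact.exists_johnPosition hX hs
  have htop : SliceTop n (A ⁻¹' X) := by
    intro b h hh hb
    let C : (Fin (n + 1) → ℝ) ≃ₗ[ℝ] E n :=
      (WithLp.linearEquiv 2 ℝ (Fin (n + 1) → ℝ)).symm.trans b.repr.symm.toLinearEquiv
    have himg : (A.symm.trans C.symm) '' X = coords b ⁻¹' (A ⁻¹' X) := by
      rw [LinearEquiv.image_eq_preimage_symm]
      rfl
    have h1 := hall (A.symm.trans C.symm) h hh fun x hx => by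
      rw [himg] at hx
      rw [← Gen.Contact.repr_coords b x 0]
      exact (le_abs_self _).trans (hb _ hx)
    rw [himg] at h1
    have e : volume.real (coords b ⁻¹' (A ⁻¹' X)) = volume.real (A ⁻¹' X) := by
      rw [measureReal_def, measureReal_def,
        (Gen.Contact.measurePreserving_coords b).measure_preimage_emb
          (Gen.Contact.measurableEmbedding_coords b)]
    rw [e] at h1
    exact h1
  have hvol := volume_eq_of_top hn hH hT hE hJ htop
  let L : (Fin (n + 1) → ℝ) ≃ₗ[ℝ] E n := (WithLp.linearEquiv 2 ℝ (Fin (n + 1) → ℝ)).symm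
  refine ⟨A.symm.trans L.symm, ?_⟩
  have himg : (A.symm.trans L.symm) '' X = WithLp.toLp 2 ⁻¹' (A ⁻¹' X) := by
    rw [LinearEquiv.image_eq_preimage_symm]
    rfl
  refine (Gen.Eq.eq_of_subset_vol Gen.Eq.bal_body.2.1 (Gen.Mx.body_map hX _) ?_ ?_).symm
  · rw [himg, Gen.Eq.bal_eq]
    exact preimage_mono hJ.ball
  · rw [himg, Gen.Eq.vol_bal, measureReal_def, (PiLp.volume_preserving_toLp (Fin (n + 1))).measure_preimage
      hJ.compact.measurableSet.nullMeasurableSet, ← measureReal_def, hvol]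

/-- Equality in Petty's inequality holds exactly for ellipsoids, given the scalar inequalities and
their strict forms. -/
theorem petty_eq_iff {H : ℕ → ℝ → ℝ → ℝ}
    (hL : ∀ k, 2 ≤ k → Kernel (H k) ∧ KernelLemma k (H k))
    {n : ℕ} (hn : 2 ≤ n) (hT : Tight (H n)) (hE : KernelEq n (H n))
    {K : Set (EuclideanSpace ℝ (Fin (n + 1)))} (hc : Convex ℝ K) (hk : IsCompact K)
    (hi : (interior K).Nonempty) :
    volume.real (Every.projBody K) =
        kappa n ^ (n + 1) / kappa (n + 1) ^ (n - 1) * volume.real K ^ n ↔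
      ∃ (a : EuclideanSpace ℝ (Fin (n + 1)))
        (T : EuclideanSpace ℝ (Fin (n + 1)) ≃ₗ[ℝ] EuclideanSpace ℝ (Fin (n + 1))),
        K = (fun x => a + T x) '' Metric.closedBall 0 1 := by
  have hP : Gen.Eq.Petty n (Gen.pcN n * (Gen.pcN (n + 1) / Gen.pcN n)) := fun S hS => by
    rw [mul_div_cancel₀ _ (Gen.pcN_pos n).ne']
    exact petty_of_kernel (n + 1) (by omega) (fun k hk _ => hL k hk) S hS.2.1 hS.1
  have h := Gen.Eq.projBody_eq_iff_slice hn (Gen.pcN_pos n)
    (div_pos (Gen.pcN_pos (n + 1)) (Gen.pcN_pos n)) (mul_div_cancel₀ _ (Gen.pcN_pos n).ne')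
    (petty_of_kernel n hn fun k hk _ => hL k hk) hP
    (sliceEq_of_kernel hn (hL n hn).1 hT hE) hc hk hi
  change volume.real (Gen.projBody K) = _ ↔ _
  simpa only [Gen.pcN, Nat.add_sub_cancel, show n + 1 - 2 = n - 1 by omega] using h

/-- Petty's conjecture with its equality cases, from the scalar inequality of a convex test
function and its strict form in each dimension. -/
theorem petty_of_scalar {φ : ℕ → ℝ → ℝ}
    (hL : ∀ k, 2 ≤ k → Test (φ k) ∧ ScalarLemma k (φ k) ∧ ScalarEq k (φ k))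
    {n : ℕ} (hn : 2 ≤ n) {K : Set (EuclideanSpace ℝ (Fin (n + 1)))} (hc : Convex ℝ K)
    (hk : IsCompact K) (hi : (interior K).Nonempty) :
    kappa n ^ (n + 1) / kappa (n + 1) ^ (n - 1) * volume.real K ^ n ≤
        volume.real (Every.projBody K) ∧
      (volume.real (Every.projBody K) =
          kappa n ^ (n + 1) / kappa (n + 1) ^ (n - 1) * volume.real K ^ n ↔
        ∃ (a : EuclideanSpace ℝ (Fin (n + 1)))
          (T : EuclideanSpace ℝ (Fin (n + 1)) ≃ₗ[ℝ] EuclideanSpace ℝ (Fin (n + 1))),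
          K = (fun x => a + T x) '' Metric.closedBall 0 1) := by
  have h2 : ∀ k, 2 ≤ k → Kernel (diffKer (φ k)) ∧ KernelLemma k (diffKer (φ k)) := fun k hk2 =>
    ⟨(hL k hk2).1.kernel, kernelLemma_of_scalar (by omega) (hL k hk2).1 (hL k hk2).2.1⟩
  exact ⟨petty_euclidean h2 hn hc hk, petty_eq_iff h2 hn (hL n hn).1.tight
    (kernelEq_of_scalar (by omega) (hL n hn).1 (hL n hn).2.2) hc hk hi⟩

end

end Vale.Agent.P237.Swap
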