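import Vale.Agent.P237.Gen.Contact.Gradient

/-!
The derivative of the gauge in a direction `v`, tested against functions of the height
`⟪u, x⟫ / gauge K x` for a functional `u` with `⟪u, v⟫ = 1`.
-/

namespace Vale.Agent.P237.Swap

open MeasureTheory Set Metric Filter
open scoped RealInnerProductSpace Pointwise Topology
open Gen.Contact

noncomputable section

variable {n : ℕ} {K : Set (E n)}

theorem abs_dg_le' (hK : Ctr K) (v : E n) (x : E n) : |dg K v x| ≤ ‖v‖ := by
  rw [← Real.norm_eq_abs]
  refine ((fderiv ℝ (gauge K) x).le_opNorm v).trans ?_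
  exact (mul_le_mul_of_nonneg_right (hK.norm_fderiv_le x) (norm_nonneg v)).trans (one_mul _).le

/-- Integration by parts against `1 - gauge`. -/
theorem integral_deriv_mul_one_sub (hK : Ctr K) {u v : E n} (huv : ⟪u, v⟫ = 1)
    (hu : ∀ x ∈ K, |⟪u, x⟫| ≤ 1) {η : ℝ → ℝ} (hη : ContDiff ℝ 1 η) :
    ∫ x in K, deriv η ⟪u, x⟫ * (1 - gauge K x) = ∫ x in K, η ⟪u, x⟫ * dg K v x := by
  have hd : Continuous (deriv η) := hη.continuous_deriv (by simp)
  obtain ⟨C, hC⟩ := isCompact_Icc.exists_bound_of_continuousOn hd.continuousOn (s := Icc (-2:ℝ) 2)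
  have hL : LipschitzOnWith C.toNNReal η (Icc (-2:ℝ) 2) :=
    (convex_Icc _ _).lipschitzOnWith_of_nnnorm_deriv_le
      (fun t _ => hη.differentiable (by simp) t)
      (fun t ht => by
        rw [← NNReal.coe_le_coe, coe_nnnorm]
        exact (hC t ht).trans (Real.le_coe_toNNReal C))
  set p : ℝ → ℝ := fun t => max (-2) (min 2 t) with hp
  have hpL : LipschitzWith 1 p := by
    simpa [hp] using (LipschitzWith.id.const_min (2:ℝ)).const_max (-2:ℝ)
  have hηp : LipschitzWith C.toNNReal (η ∘ p) := by
    have := hL.comp (hpL.lipschitzOnWith (s := univ)) fun t _ =>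
      ⟨le_max_left _ _, max_le (by norm_num) (min_le_left _ _)⟩
    simpa using this
  have hin : LipschitzWith ‖u‖.toNNReal fun x : E n => ⟪u, x⟫ := by
    refine LipschitzWith.of_dist_le_mul fun x y => ?_
    rw [Real.dist_eq, ← inner_sub_right, Real.coe_toNNReal _ (norm_nonneg u), dist_eq_norm]
    exact abs_real_inner_le_norm u (x - y)
  set f : E n → ℝ := fun x => η (p ⟪u, x⟫) with hf
  have hfL : LipschitzWith (C.toNNReal * ‖u‖.toNNReal) f := hηp.comp hin
  set T : E n → ℝ := fun x => max (1 - gauge K x) 0 with hT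
  obtain ⟨D, hTL⟩ : ∃ D, LipschitzWith D T :=
    ⟨_, ((LipschitzWith.const (1 : ℝ)).sub hK.lipschitz).max_const 0⟩
  have hTout : ∀ x ∉ K, T x = 0 := fun x hx => max_eq_right (by
    linarith [not_le.1 fun h => hx ((hK.gauge_le_one_iff x).1 h)])
  have hTc : HasCompactSupport T := HasCompactSupport.intro hK.compact hTout
  have hLHS : ∀ x, lineDeriv ℝ f x v * T x =
      K.indicator (fun x => deriv η ⟪u, x⟫ * (1 - gauge K x)) x := by
    intro x
    by_cases hx : x ∈ K
    · have hg := (hK.gauge_le_one_iff x).2 hx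
      rw [indicator_of_mem hx, show T x = 1 - gauge K x from max_eq_left (by linarith)]
      congr 1
      have hev : (fun t : ℝ => f (x + t • v)) =ᶠ[𝓝 0] fun t => η (⟪u, x⟫ + t) := by
        filter_upwards [Metric.ball_mem_nhds (0:ℝ) one_pos] with t ht
        rw [mem_ball_zero_iff, Real.norm_eq_abs, abs_lt] at ht
        have h := abs_le.1 (hu x hx)
        have e : ⟪u, x + t • v⟫ = ⟪u, x⟫ + t := by
          rw [inner_add_right, real_inner_smul_right, huv, mul_one]
        simp only [hf, e, hp]
        rw [min_eq_right (by linarith [h.2]), max_eq_right (by linarith [h.1])]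
      rw [lineDeriv, hev.deriv_eq, deriv_comp_const_add, add_zero]
    · rw [indicator_of_notMem hx, hTout x hx, mul_zero]
  have hRHS : ∀ᵐ x, lineDeriv ℝ T x (-v) * f x = K.indicator (fun x => η ⟪u, x⟫ * dg K v x) x := by
    filter_upwards [hK.lipschitz.ae_differentiableAt (μ := volume),
      measure_eq_zero_iff_ae_notMem.1 (hK.convex.addHaar_frontier (volume : Measure (E n)))]
      with x hdiff hfr
    by_cases hx : x ∈ K
    · have hint : x ∈ interior K := by
        by_contra h
        exact hfr ⟨subset_closure hx, h⟩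
      rw [indicator_of_mem hx]
      have hev : T =ᶠ[𝓝 x] fun y => 1 - gauge K y := by
        filter_upwards [isOpen_interior.mem_nhds hint] with y hy
        exact max_eq_left (by linarith [(hK.gauge_le_one_iff y).2 (interior_subset hy)])
      have hD : HasFDerivAt T (-fderiv ℝ (gauge K) x) x :=
        (hdiff.hasFDerivAt.const_sub 1).congr_of_eventuallyEq hev
      rw [(hD.hasLineDerivAt (-v)).lineDeriv]
      have h := abs_le.1 (hu x hx)
      simp only [hf, hp, dg, ContinuousLinearMap.neg_apply, map_neg, neg_neg]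
      rw [min_eq_right (by linarith [h.2]), max_eq_right (by linarith [h.1]), mul_comm]
    · rw [indicator_of_notMem hx]
      have hD : HasFDerivAt T (0 : E n →L[ℝ] ℝ) x := by
        refine (hasFDerivAt_const (0:ℝ) x).congr_of_eventuallyEq ?_
        filter_upwards [hK.compact.isClosed.isOpen_compl.mem_nhds hx] with y hy
        exact hTout y hy
      rw [(hD.hasLineDerivAt (-v)).lineDeriv]
      simp
  have key := LipschitzWith.integral_lineDeriv_mul_eq (μ := (volume : Measure (E n))) hfL hTL hTc v
  rw [integral_congr_ae (Eventually.of_forall hLHS), integral_congr_ae hRHS,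
    integral_indicator hK.compact.measurableSet, integral_indicator hK.compact.measurableSet] at key
  exact key

/-- The mean of the derivative of the gauge against a function of the height. -/
theorem integral_dg_ht (hK : Ctr K) {u v : E n} (huv : ⟪u, v⟫ = 1) (hu : ∀ x ∈ K, |⟪u, x⟫| ≤ 1)
    {ψ : ℝ → ℝ} (hψ : ContDiff ℝ 2 ψ) :
    ((n : ℝ) + 1) * ∫ x in K, dg K v x * ψ (ht K u x) = ∫ x in K, deriv ψ ⟪u, x⟫ := by
  have hψ1 : ContDiff ℝ 1 ψ := hψ.of_le (by norm_num)
  have hd1 : ContDiff ℝ 1 (deriv ψ) := hψ.deriv'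
  set η : ℝ → ℝ := fun t => ((n : ℝ) + 1) * ψ t + t * deriv ψ t with hη
  have hηc : ContDiff ℝ 1 η := (contDiff_const.mul hψ1).add (contDiff_id.mul hd1)
  have hder : ∀ t, deriv η t = ((n : ℝ) + 2) * deriv ψ t + t * deriv (deriv ψ) t := by
    intro t
    have a := ((hψ1.differentiable (by simp) t).hasDerivAt.const_mul ((n : ℝ) + 1))
    have b := (hasDerivAt_id t).mul (hd1.differentiable (by simp) t).hasDerivAt
    refine ((a.add b).deriv.trans ?_)
    simp
    ring
  have hdη : Continuous (deriv η) := hηc.continuous_deriv (by simp)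
  rw [integral_ht hK hu (measurable_dg K v) (abs_dg_le' hK v) (fun r hr x => dg_smul K v hr x) hψ1,
    ← integral_const_mul]
  have e1 : ∀ x, ((n : ℝ) + 1) * (dg K v x * (ψ ⟪u, x⟫ + ⟪u, x⟫ * deriv ψ ⟪u, x⟫ / (n + 1))) =
      η ⟪u, x⟫ * dg K v x := fun x => by
    simp only [hη]
    field_simp
  simp only [e1]
  rw [← integral_deriv_mul_one_sub hK huv hu hηc]
  obtain ⟨C, hC0, hC⟩ := exists_bound_Icc hdη
  have hip : Measurable fun p : E n × ℝ => ⟪u, p.1⟫ :=
    (continuous_const.inner continuous_fst).measurable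
  obtain ⟨-, he⟩ := layer hK (fun x _ => deriv η ⟪u, x⟫) (hdη.measurable.comp hip) C
    fun x r h0 h1 hg => by
      refine (hC _ (abs_le.1 (((abs_ht_le hK hu x).trans hg).trans h1.le))).trans ?_
      rw [le_div_iff₀ h0]
      nlinarith
  simp only [intervalIntegral.integral_const, smul_eq_mul] at he
  rw [show (∫ x in K, deriv η ⟪u, x⟫ * (1 - gauge K x)) =
      ∫ x in K, (1 - gauge K x) * deriv η ⟪u, x⟫ from
    integral_congr_ae (Eventually.of_forall fun x => mul_comm _ _), he]
  set G : ℝ → E n → ℝ := fun r y => r ^ (n + 1) * deriv η ⟪u, r • y⟫ with hG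
  have hGc : Continuous (Function.uncurry G) := by
    simp only [hG]
    exact (continuous_fst.pow _).mul
      (hdη.comp (continuous_const.inner (continuous_fst.smul continuous_snd)))
  haveI : IsFiniteMeasure (volume.restrict K) :=
    ⟨by rw [Measure.restrict_apply_univ]; exact hK.compact.measure_lt_top⟩
  have hGi : Integrable (Function.uncurry G)
      ((volume.restrict (Ioc (0:ℝ) 1)).prod (volume.restrict K)) := by
    rw [Measure.prod_restrict]
    exact (hGc.continuousOn.integrableOn_compact (isCompact_Icc.prod hK.compact)).mono_set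
      (prod_mono Ioc_subset_Icc_self subset_rfl)
  rw [intervalIntegral.integral_of_le zero_le_one]
  simp only [← integral_const_mul]
  refine (integral_integral_swap hGi).trans ?_
  refine setIntegral_congr_fun hK.compact.measurableSet fun y _ => ?_
  show (∫ r in Ioc (0:ℝ) 1, r ^ (n + 1) * deriv η ⟪u, r • y⟫) = _
  rw [← intervalIntegral.integral_of_le zero_le_one]
  set a := ⟪u, y⟫ with ha
  have hF : ∀ r ∈ uIcc (0:ℝ) 1, HasDerivAt (fun r => r ^ (n + 2) * deriv ψ (r * a))
      (r ^ (n + 1) * deriv η ⟪u, r • y⟫) r := by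
    intro r _
    have a1 : HasDerivAt (fun r : ℝ => r ^ (n + 2)) (((n + 2 : ℕ) : ℝ) * r ^ (n + 1)) r :=
      hasDerivAt_pow (n + 2) r
    have a2 := (hd1.differentiable (by simp) (r * a)).hasDerivAt.comp r
      ((hasDerivAt_id r).mul_const a)
    refine (a1.mul a2).congr_deriv ?_
    rw [real_inner_smul_right, ← ha, hder]
    simp only [Function.comp_apply, id_eq]
    push_cast
    ring
  rw [intervalIntegral.integral_eq_sub_of_hasDerivAt hF
    ((hGc.comp (Continuous.prodMk continuous_id (continuous_const (y := y)))).intervalIntegrable _ _)]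
  simp

end

end Vale.Agent.P237.Swap
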