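import Vale.Agent.P237.Swap.Slices
import Vale.Agent.P237.Gen.Contact
import Vale.Agent.P237.Gen.Induct
import Vale.Agent.P237.Gen.Euclid
import Vale.Agent.P237.Every.Main

/-!
Petty's inequality in every dimension from the scalar inequality of the swap argument.
-/

namespace Vale.Agent.P237.Swap

open MeasureTheory Set Metric Filter
open scoped RealInnerProductSpace Topology Pointwise
open Gen.Contact (E Ctr coords slArea pw semi)
open Every (kappa)

noncomputable section

variable {n : ℕ}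

/-- Some contact bound holds in every dimension. -/
theorem contactBound_zero (hn : 2 ≤ n) : Gen.ContactBound n 0 := by
  refine Gen.contactBound_of_slice fun K hJ => ?_
  obtain ⟨b, hb, -⟩ := Gen.Contact.exists_contact_grad (show n ≠ 0 by omega) hJ
  refine ⟨b, hb, ?_⟩
  rw [zero_mul]
  exact pow_nonneg (integral_nonneg fun t => Real.rpow_nonneg (Gen.Contact.slArea_nonneg K b t) _) _

/-- The profile, basis and height of a supporting pair, with volume and slice functional. -/
theorem exists_dir (hn : 2 ≤ n) {K : Set (E n)} (hK : Ctr K) (hs : ∀ x ∈ K, -x ∈ K) {u v : E n}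
    (hp : Pair K u v) :
    ∃ (b : OrthonormalBasis (Fin (n + 1)) ℝ (E n)) (h : ℝ) (f : ℝ → ℝ), 0 < h ∧
      (∀ x ∈ K, |⟪b 0, x⟫| ≤ h) ∧ Dir n K u v (kappa n * h) f ∧
      volume.real K = 2 * kappa n * h * pw n f ∧
      ∫ t, slArea K b t ^ (((n : ℝ) - 1) / n) =
        2 * kappa n ^ (((n : ℝ) - 1) / n) * h * pw (n - 1) f := by
  have hn0 : n ≠ 0 := by omega
  obtain ⟨huv, hle, hdg, hvK⟩ := hp
  have hu : u ≠ 0 := fun e => by rw [e, inner_zero_left] at huv; norm_num at huv
  have hc0 : 0 < ‖u‖ := norm_pos_iff.2 hu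
  obtain ⟨b, hb⟩ := Gen.Contact.exists_basis_first (n := n) (u := ‖u‖⁻¹ • u)
    (by rw [norm_smul, norm_inv, norm_norm, inv_mul_cancel₀ hc0.ne'])
  set h := ‖u‖⁻¹ with hh
  have hh0 : 0 < h := inv_pos.2 hc0
  have hbK : ∀ x ∈ K, |⟪b 0, x⟫| ≤ h := fun x hx => by
    rw [hb, real_inner_smul_left, abs_mul, abs_of_pos hh0]
    exact mul_le_of_le_one_right hh0.le (hle x hx)
  have hne : ∀ t ∈ Icc (-1 : ℝ) 1, (Vale.P254.sl (coords b ⁻¹' K) (h * t)).Nonempty := fun t ht => by
    refine ⟨fun i => ⟪b i.succ, t • v⟫, ?_⟩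
    have hmem : t • v ∈ K := by
      have h2 := hK.convex hvK (hs v hvK) (show 0 ≤ (1 + t) / 2 by linarith [ht.1])
        (show 0 ≤ (1 - t) / 2 by linarith [ht.2]) (by ring)
      rw [smul_neg, ← sub_eq_add_neg, ← sub_smul] at h2
      rwa [show (1 + t) / 2 - (1 - t) / 2 = t by ring] at h2
    show coords b (Fin.cons _ _) ∈ K
    convert hmem using 1
    rw [coords, ← b.repr.symm_apply_apply (t • v)]
    congr 1
    ext i
    refine Fin.cases ?_ (fun j => ?_) i
    · simp only [PiLp.toLp_apply, Fin.cons_zero, b.repr_apply_apply, real_inner_smul_right, hb,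
        real_inner_smul_left, huv, mul_one]
      ring
    · simp [b.repr_apply_apply, real_inner_smul_right]
  set f := dprof K b h with hf
  have hprof : Prof f := dprof_prof hn0 hK hs b hne
  have hκ := Gen.kappa_pos n
  have hDir : Dir n K u v (kappa n * h) f :=
    ⟨hK, huv, hle, hdg, mul_pos hκ hh0, hprof,
      fun φ hφ => integral_dprof hn0 hK.compact hs hu hb hle hφ⟩
  have hhalf : ∀ m : ℕ, ∫ t in (-1:ℝ)..1, f t ^ m = 2 * pw m f := fun m => by
    have i1 := hprof.integrable_pow m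
    have h0 : (0 : ℝ) ∈ uIcc (-1 : ℝ) 1 := by rw [uIcc_of_le (by norm_num)]; norm_num
    rw [← intervalIntegral.integral_add_adjacent_intervals
      (i1.mono_set (uIcc_subset_uIcc left_mem_uIcc h0))
      (i1.mono_set (uIcc_subset_uIcc h0 right_mem_uIcc))]
    have := intervalIntegral.integral_comp_neg (f := fun t => f t ^ m) (a := (0:ℝ)) (b := 1)
    simp only [neg_zero, hprof.even] at this
    rw [← this, pw]
    ring
  refine ⟨b, h, f, hh0, hbK, hDir, ?_, ?_⟩
  · have := hDir.slice (fun _ => 1) continuous_const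
    simp only [setIntegral_const, smul_eq_mul, mul_one, one_mul, hhalf] at this
    rw [this]
    ring
  · have hr : ((n : ℝ) - 1) / n ≠ 0 := by
      have : (2 : ℝ) ≤ n := by exact_mod_cast hn
      exact div_ne_zero (by linarith) (by linarith)
    have hout : ∀ s, h < |s| → slArea K b s = 0 := fun s hs' => by
      have : Vale.P254.sl (coords b ⁻¹' K) s = ∅ := eq_empty_of_forall_notMem fun y hy => by
        have h1 := hbK _ hy
        rw [Gen.Contact.repr_coords] at h1
        simp only [Fin.cons_zero] at h1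
        linarith
      simp [slArea, Vale.P254.slVol, this]
    have h1 := MeasureTheory.Measure.integral_comp_mul_left
      (fun s => slArea K b s ^ (((n : ℝ) - 1) / n)) h
    simp only [smul_eq_mul, abs_inv, abs_of_pos hh0] at h1
    have h2 : ∫ t, slArea K b (h * t) ^ (((n : ℝ) - 1) / n) =
        kappa n ^ (((n : ℝ) - 1) / n) * ∫ t in (-1:ℝ)..1, f t ^ (n - 1) := by
      rw [← intervalIntegral.integral_const_mul, intervalIntegral.integral_of_le (by norm_num),
        ← integral_Icc_eq_integral_Ioc, ← integral_indicator measurableSet_Icc]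
      refine integral_congr_ae (Eventually.of_forall fun t => ?_)
      simp only
      by_cases ht : t ∈ Icc (-1:ℝ) 1
      · rw [indicator_of_mem ht, Gen.Contact.slArea_rpow hn0]
        rfl
      · rw [indicator_of_notMem ht, hout _ ?_, Real.zero_rpow hr]
        rw [abs_mul, abs_of_pos hh0]
        have : 1 < |t| := not_le.1 fun h => ht (abs_le.1 h)
        nlinarith
    rw [h2, hhalf] at h1
    have h3 : (∫ s, slArea K b s ^ (((n : ℝ) - 1) / n)) =
        h * (kappa n ^ (((n : ℝ) - 1) / n) * (2 * pw (n - 1) f)) := by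
      rw [h1]; field_simp
    rw [h3]
    ring

/-- A symmetric body has a direction whose profile passes the swap constraint and carries the
slice functional. -/
theorem exists_profile (hn : 2 ≤ n) {H : ℝ → ℝ → ℝ} (hH : Kernel H) {K : Set (E n)} (hK : Ctr K)
    (hs : ∀ x ∈ K, -x ∈ K) :
    ∃ (b : OrthonormalBasis (Fin (n + 1)) ℝ (E n)) (h : ℝ) (f : ℝ → ℝ), 0 < h ∧
      (∀ x ∈ K, |⟪b 0, x⟫| ≤ h) ∧ Prof f ∧ SwapOK n H f ∧
      volume.real K = 2 * kappa n * h * pw n f ∧
      ∫ t, slArea K b t ^ (((n : ℝ) - 1) / n) =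
        2 * kappa n ^ (((n : ℝ) - 1) / n) * h * pw (n - 1) f := by
  obtain ⟨u, v, hp, hJ⟩ := exists_direction hH hK hs
  obtain ⟨b, h, f, hh, hb, hd, hV, hG⟩ := exists_dir hn hK hs hp
  exact ⟨b, h, f, hh, hb, hd.prof, hd.swapOK (by omega) hH hJ, hV, hG⟩

/-- The sharp slice bound from the scalar inequality. -/
theorem sliceBound_of_kernel (hn : 2 ≤ n) {H : ℝ → ℝ → ℝ} (hH : Kernel H)
    (hL : KernelLemma n H) : Gen.SliceBound n (Gen.pcN (n + 1) / Gen.pcN n) := by
  intro X hX hsym
  obtain ⟨A, hJ⟩ := Gen.Contact.exists_johnPosition hX hsym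
  obtain ⟨b, h, f, hh, hb, hf, hok, hV, hG⟩ := exists_profile hn hH hJ.toCtr hJ.symm
  have hS := hL f hf hok
  let C : (Fin (n + 1) → ℝ) ≃ₗ[ℝ] E n :=
    (WithLp.linearEquiv 2 ℝ (Fin (n + 1) → ℝ)).symm.trans b.repr.symm.toLinearEquiv
  refine ⟨A.symm.trans C.symm, h, hh, ?_, ?_⟩
  · intro x hx
    rw [LinearEquiv.image_eq_preimage_symm] at hx
    change coords b x ∈ A ⁻¹' X at hx
    rw [← Gen.Contact.repr_coords b x 0]
    exact (le_abs_self _).trans (hb _ hx)
  have himg : (A.symm.trans C.symm) '' X = coords b ⁻¹' (A ⁻¹' X) := by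
    rw [LinearEquiv.image_eq_preimage_symm]
    rfl
  rw [himg, measureReal_def,
    (Gen.Contact.measurePreserving_coords b).measure_preimage_emb
      (Gen.Contact.measurableEmbedding_coords b), ← measureReal_def]
  show _ ≤ (∫ t, slArea (A ⁻¹' X) b t ^ (((n : ℝ) - 1) / n)) ^ n
  rw [hV, hG, Gen.Contact.pcN_ratio hn]
  have hκ := Gen.kappa_pos n
  have hκe : (kappa n ^ (((n : ℝ) - 1) / n)) ^ n = kappa n ^ (n - 1) := by
    rw [← Real.rpow_natCast, ← Real.rpow_mul hκ.le, div_mul_cancel₀ _ (by positivity),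
      ← Nat.cast_one, ← Nat.cast_sub (by omega), Real.rpow_natCast]
  simp only [mul_pow]
  rw [hκe, ← pow_sub_one_mul (show n ≠ 0 by omega) (2 : ℝ),
    ← pow_sub_one_mul (show n ≠ 0 by omega) h]
  have hW := pow_pos (Gen.Contact.pw_semi_pos n) (n - 1)
  rw [div_mul_eq_mul_div, div_mul_eq_mul_div, div_le_iff₀ hW]
  have hc : 0 ≤ 2 ^ (n - 1) * 2 * kappa n ^ (n - 1) * (h ^ (n - 1) * h) := by positivity
  calc 2 * pw (n - 1) semi ^ n *
        (2 ^ (n - 1) * kappa n ^ (n - 1) * h ^ (n - 1) * pw n f ^ (n - 1)) * h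
      = 2 ^ (n - 1) * 2 * kappa n ^ (n - 1) * (h ^ (n - 1) * h) *
        (pw (n - 1) semi ^ n * pw n f ^ (n - 1)) := by ring
    _ ≤ 2 ^ (n - 1) * 2 * kappa n ^ (n - 1) * (h ^ (n - 1) * h) *
        (pw (n - 1) f ^ n * pw n semi ^ (n - 1)) := mul_le_mul_of_nonneg_left hS hc
    _ = _ := by ring

/-- Petty's inequality in every dimension from the scalar inequalities. -/
theorem petty_of_kernel {H : ℕ → ℝ → ℝ → ℝ} (N : ℕ) (hN : 2 ≤ N)
    (hL : ∀ n, 2 ≤ n → n < N → Kernel (H n) ∧ KernelLemma n (H n)) :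
    ∀ S : Set (Fin N → ℝ), IsCompact S → Convex ℝ S →
      Gen.pcN N * volume.real S ^ (N - 1) ≤ volume.real (AllN.piSet S) := by
  induction N, hN using Nat.le_induction with
  | base =>
    intro S hS hc
    rw [Gen.pcN_two]
    exact AllN.four_mul_le_piSet hS hc
  | succ n hn ih =>
    intro S hS hc
    obtain ⟨hH, hK⟩ := hL n hn n.lt_succ_self
    have hstep := Gen.pz_step_slice hn (Gen.pcN_pos n)
      (ih fun k hk hkn => hL k hk (Nat.lt_succ_of_lt hkn)) (contactBound_zero hn)
      (sliceBound_of_kernel hn hH hK)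
    rw [mul_div_cancel₀ _ (Gen.pcN_pos n).ne'] at hstep
    exact Every.piSet_le_of_zon (by omega) (Gen.pcN_pos _).le hstep hS hc

/-- A scalar inequality for a convex test function gives the one for its kernel. -/
theorem kernelLemma_of_scalar (hn : 1 ≤ n) {φ : ℝ → ℝ} (hφ : Test φ) (hL : ScalarLemma n φ) :
    KernelLemma n (diffKer φ) :=
  fun f hf hok => hL f hf (swapX_nonneg hn hφ hf hok)

/-- The conjectured inequality, on Euclidean space, given the scalar inequalities. -/
theorem petty_euclidean {H : ℕ → ℝ → ℝ → ℝ}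
    (hL : ∀ n, 2 ≤ n → Kernel (H n) ∧ KernelLemma n (H n)) {n : ℕ} (hn : 2 ≤ n)
    {K : Set (EuclideanSpace ℝ (Fin (n + 1)))} (hc : Convex ℝ K) (hk : IsCompact K) :
    kappa n ^ (n + 1) / kappa (n + 1) ^ (n - 1) * volume.real K ^ n ≤
      volume.real (Every.projBody K) := by
  have hk' : IsCompact (WithLp.ofLp '' K) := hk.image (PiLp.continuous_ofLp 2 _)
  have hc' : Convex ℝ (WithLp.ofLp '' K) :=
    hc.linear_image (WithLp.linearEquiv 2 ℝ (Fin (n + 1) → ℝ)).toLinearMap
  have h := petty_of_kernel (n + 1) (by omega) (fun k hk _ => hL k hk) (WithLp.ofLp '' K) hk' hc'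
  have hvK : volume.real (WithLp.ofLp '' K) = volume.real K := by
    have e : K = WithLp.ofLp ⁻¹' (WithLp.ofLp '' K) :=
      (preimage_image_eq K (WithLp.ofLp_injective 2)).symm
    conv_rhs => rw [e]
    rw [measureReal_def, measureReal_def,
      (PiLp.volume_preserving_ofLp (Fin (n + 1))).measure_preimage
        hk'.measurableSet.nullMeasurableSet]
  rw [hvK] at h
  change _ ≤ volume.real (Gen.projBody K)
  rw [Gen.projBody_eq hc hk, measureReal_def (s := WithLp.ofLp ⁻¹' _),
    (PiLp.volume_preserving_ofLp (Fin (n + 1))).measure_preimage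
      (show IsCompact (AllN.piSet (WithLp.ofLp '' K)) from
        AllN.isCompact_sub _).measurableSet.nullMeasurableSet, ← measureReal_def]
  simpa only [Gen.pcN, Nat.add_sub_cancel, show n + 1 - 2 = n - 1 by omega] using h

end

end Vale.Agent.P237.Swap
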