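import Vale.Agent.P237.Swap.Convex
import Vale.Agent.P237.Gen.Contact.Main
import Vale.Agent.P237.AllN.Body

/-!
The profile of a symmetric body in the direction of a supporting functional, and its continuity up
to the ends of its interval.
-/

namespace Vale.Agent.P237.Swap

open MeasureTheory Set Metric Filter
open scoped RealInnerProductSpace Topology Pointwise
open Gen.Contact (E Ctr dg ht coords slArea prof pw)
open Every (kappa)
open Vale.P254 (sl slVol)

noncomputable section

variable {n : ℕ}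

/-- The volume of a section is upper semicontinuous. -/
theorem slVol_usc {X : Set (Fin (n + 1) → ℝ)} (hX : IsCompact X) {s : ℝ}
    (hs : (sl X s).Nonempty) {ε : ℝ} (hε : 0 < ε) :
    ∀ᶠ r in 𝓝 s, slVol X r ≤ slVol X s + ε := by
  set S := sl X s with hS
  have hSc : IsCompact S := (hX.image (f := fun x i => x (Fin.succ i)) (by fun_prop)).of_isClosed_subset
    (hX.isClosed.preimage (Vale.P254.continuous_cons s)) fun y hy => ⟨_, hy, by simp⟩
  obtain ⟨δ, hδ, hδε⟩ : ∃ δ : ℝ, 0 < δ ∧ volume.real (cthickening δ S) ≤ slVol X s + ε := by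
    have h1 := (ENNReal.tendsto_toReal hSc.measure_lt_top.ne).comp
      ((tendsto_measure_cthickening_of_isCompact (μ := volume) hSc).mono_left nhdsWithin_le_nhds)
      (x := 𝓝[>] (0:ℝ))
    obtain ⟨δ, h2, h3⟩ := ((h1.eventually (eventually_le_nhds (show (volume S).toReal <
      slVol X s + ε by rw [slVol, measureReal_def, hS]; linarith))).and self_mem_nhdsWithin).exists
    exact ⟨δ, h3, h2⟩
  set Z := X ∩ {p | δ ≤ infDist (fun i => p (Fin.succ i)) S} with hZ
  have hZc : IsCompact Z := hX.inter_right (isClosed_le continuous_const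
    ((continuous_infDist_pt _).comp (by fun_prop)))
  have hns : s ∉ (fun p : Fin (n + 1) → ℝ => p 0) '' Z := by
    rintro ⟨p, ⟨hpX, hp⟩, hp0⟩
    have hmem : (fun i => p (Fin.succ i)) ∈ S := by
      show Fin.cons s _ ∈ X
      convert hpX using 1
      funext i
      refine Fin.cases ?_ (fun j => ?_) i
      · simp [← hp0]
      · simp
    have hp' : δ ≤ infDist (fun i => p (Fin.succ i)) S := hp
    rw [infDist_zero_of_mem hmem] at hp'
    linarith
  filter_upwards [(hZc.image (continuous_apply 0)).isClosed.isOpen_compl.mem_nhds hns] with r hr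
  refine le_trans (measureReal_mono ?_ hSc.cthickening.measure_lt_top.ne) hδε
  intro y hy
  by_contra hc
  refine hr ⟨Fin.cons r y, ⟨hy, ?_⟩, by simp⟩
  show δ ≤ infDist (fun i => (Fin.cons r y : Fin (n + 1) → ℝ) (Fin.succ i)) S
  simp only [Fin.cons_succ]
  by_contra hlt
  exact hc (mem_cthickening_of_dist_le y (Classical.choose ((infDist_lt_iff hs).1 (not_le.1 hlt))) δ S
    (Classical.choose_spec ((infDist_lt_iff hs).1 (not_le.1 hlt))).1
    (Classical.choose_spec ((infDist_lt_iff hs).1 (not_le.1 hlt))).2.le)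

variable {K : Set (E n)}

/-- The profile in the direction `b 0`, with the height scaled to `[-1, 1]`. -/
def dprof (K : Set (E n)) (b : OrthonormalBasis (Fin (n + 1)) ℝ (E n)) (h t : ℝ) : ℝ :=
  prof K b (h * t)

theorem dprof_even (hs : ∀ x ∈ K, -x ∈ K) (b : OrthonormalBasis (Fin (n + 1)) ℝ (E n)) (h t : ℝ) :
    dprof K b h (-t) = dprof K b h t := by
  rw [dprof, dprof, prof, prof, Gen.Contact.root, Gen.Contact.root, mul_neg,
    Gen.Contact.slArea_neg hs b]

theorem dprof_prof (hn : n ≠ 0) (hK : Ctr K) (hs : ∀ x ∈ K, -x ∈ K)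
    (b : OrthonormalBasis (Fin (n + 1)) ℝ (E n)) {h : ℝ}
    (hne : ∀ t ∈ Icc (-1 : ℝ) 1, (sl (coords b ⁻¹' K) (h * t)).Nonempty) :
    Prof (dprof K b h) := by
  set X := coords b ⁻¹' K with hX
  have hXc : IsCompact X := Gen.Contact.isCompact_pre hK.compact b
  have hmix : ∀ t ∈ Icc (-1 : ℝ) 1, ∀ t' ∈ Icc (-1 : ℝ) 1, ∀ p q : ℝ, 0 ≤ p → 0 ≤ q → p + q = 1 →
      p • sl X (h * t) + q • sl X (h * t') ⊆ sl X (h * (p * t + q * t')) := by
    rintro t _ t' _ p q hp hq hpq _ ⟨_, ⟨x, hx, rfl⟩, _, ⟨y, hy, rfl⟩, rfl⟩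
    have := hK.convex hx hy hp hq hpq
    rw [← Gen.Contact.coords_combo] at this
    show coords b (Fin.cons _ _) ∈ K
    convert this using 2
    funext i
    refine Fin.cases ?_ (fun j => ?_) i
    · simp; ring
    · simp
  have hκ := Gen.Contact.kappa_root_pos n
  have hroot : ∀ s, Gen.Contact.root K b s = AllN.root (sl X s) := fun s => rfl
  have hconc : ConcaveOn ℝ (Icc (-1 : ℝ) 1) (dprof K b h) := by
    refine ⟨convex_Icc _ _, fun t ht t' ht' p q hp hq hpq => ?_⟩
    simp only [smul_eq_mul, dprof, prof, hroot]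
    rw [← mul_div_assoc, ← mul_div_assoc, ← add_div, div_le_div_iff_of_pos_right hκ]
    have hc := Gen.Contact.isCompact_sl (K := K) hK.compact b
    have hv := Gen.Contact.convex_sl (K := K) hK.convex b
    rw [← AllN.root_smul hn _ hp, ← AllN.root_smul hn _ hq]
    refine (AllN.root_add_le hn ((hc _).smul p) ((hc _).smul q) ((hv _).smul p) ((hv _).smul q)
      ((hne t ht).smul_set) ((hne t' ht').smul_set)).trans ?_
    exact Real.rpow_le_rpow measureReal_nonneg
      (measureReal_mono (hmix t ht t' ht' p q hp hq hpq) (hc _).measure_lt_top.ne) (by positivity)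
  have h0 : 0 < dprof K b h 0 := by
    have := Gen.Contact.kappa_mul_semi_le hK.compact hK.ball b (t := 0) (by norm_num)
    rw [Gen.Contact.slArea_eq hn] at this
    have h1 : Gen.Contact.semi 0 = 1 := by simp [Gen.Contact.semi]
    rw [h1, one_pow] at this
    have h2 := le_of_mul_le_mul_left this (Gen.kappa_pos n)
    rw [dprof, mul_zero]
    rcases (Gen.Contact.prof_nonneg K b 0).eq_or_lt with e | e
    · rw [← e, zero_pow hn] at h2
      linarith
    · exact e
  have hnn : ∀ t, 0 ≤ dprof K b h t := fun t => Gen.Contact.prof_nonneg K b _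
  refine ⟨hconc, dprof_even hs b h, hnn, h0, ?_⟩
  -- continuity up to the ends
  have husc : ∀ t ∈ Icc (-1 : ℝ) 1, ∀ a, dprof K b h t < a → ∀ᶠ r in 𝓝 t, dprof K b h r < a := by
    intro t ht a hta
    have ha0 : 0 < a := (hnn t).trans_lt hta
    have hpow : slVol X (h * t) < kappa n * a ^ n := by
      rw [show slVol X (h * t) = slArea K b (h * t) from rfl, Gen.Contact.slArea_eq hn]
      exact mul_lt_mul_of_pos_left (pow_lt_pow_left₀ hta (hnn t) hn) (Gen.kappa_pos n)
    set ε := (kappa n * a ^ n - slVol X (h * t)) / 2 with hε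
    have hev := ((continuous_const.mul continuous_id).tendsto' t (h * t) rfl).eventually
      (slVol_usc hXc (hne t ht) (ε := ε) (by rw [hε]; linarith))
    filter_upwards [hev] with r hr
    refine lt_of_pow_lt_pow_left₀ n ha0.le ?_
    refine lt_of_mul_lt_mul_left ?_ (Gen.kappa_pos n).le
    show kappa n * prof K b (h * r) ^ n < _
    rw [← Gen.Contact.slArea_eq hn]
    refine lt_of_le_of_lt hr ?_
    rw [hε]
    linarith
  intro t ht
  rw [ContinuousWithinAt, tendsto_order]
  refine ⟨fun a ha => ?_, fun a ha => (husc t ht a ha).filter_mono nhdsWithin_le_nhds⟩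
  -- lower semicontinuity on the closed interval by concavity
  by_cases hint : t ∈ Ioo (-1 : ℝ) 1
  · exact (((hconc.subset Ioo_subset_Icc_self (convex_Ioo _ _)).continuousOn isOpen_Ioo).continuousAt
      (isOpen_Ioo.mem_nhds hint)).tendsto.eventually (lt_mem_nhds ha) |>.filter_mono nhdsWithin_le_nhds
  have hseg : Tendsto (fun r => (1 - (1 - r * t)) * dprof K b h t + (1 - r * t) * dprof K b h 0)
      (𝓝[Icc (-1 : ℝ) 1] t) (𝓝 (dprof K b h t)) := by
    have ht2 : t * t = 1 := by
      simp only [mem_Ioo, not_and_or, not_lt] at hint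
      rcases hint with h1 | h1
      · rw [show t = -1 from le_antisymm h1 ht.1]; norm_num
      · rw [show t = 1 from le_antisymm ht.2 h1]; norm_num
    have hc : Continuous fun r =>
        (1 - (1 - r * t)) * dprof K b h t + (1 - r * t) * dprof K b h 0 := by fun_prop
    refine (hc.tendsto' t _ ?_).mono_left nhdsWithin_le_nhds
    rw [ht2]; ring
  have hrt : ∀ᶠ r in 𝓝[Icc (-1 : ℝ) 1] t, 0 < r * t ∧ r * t ≤ 1 := by
    have h2 : (0:ℝ) < t * t := by
      have : t ≠ 0 := fun e => hint (by rw [e]; norm_num)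
      exact mul_self_pos.2 this
    filter_upwards [nhdsWithin_le_nhds (((continuous_id.mul continuous_const).tendsto' t (t * t) rfl
      ).eventually (eventually_gt_nhds h2)), self_mem_nhdsWithin] with r hr hr2
    refine ⟨hr, (le_abs_self _).trans ?_⟩
    rw [abs_mul]
    exact mul_le_one₀ (abs_le.2 hr2) (abs_nonneg _) (abs_le.2 ht)
  filter_upwards [hseg.eventually (lt_mem_nhds ha), hrt] with r hr hr2
  refine hr.trans_le ?_
  have := hconc.2 ht (show (0:ℝ) ∈ Icc (-1:ℝ) 1 by norm_num)
    (show 0 ≤ r * t by linarith [hr2.1]) (show 0 ≤ 1 - r * t by linarith [hr2.2]) (by ring)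
  simp only [smul_eq_mul, mul_zero, add_zero] at this
  have e : r * t * t = r := by
    simp only [mem_Ioo, not_and_or, not_lt] at hint
    rcases hint with h1 | h1
    · rw [show t = -1 from le_antisymm h1 ht.1]; ring
    · rw [show t = 1 from le_antisymm ht.2 h1]; ring
  rw [e] at this
  linarith

/-- Integrals over `K` of functions of `⟪u, x⟫`. -/
theorem integral_dprof (hn : n ≠ 0) (hK : IsCompact K) (hs : ∀ x ∈ K, -x ∈ K) {u : E n} (hu : u ≠ 0)
    {b : OrthonormalBasis (Fin (n + 1)) ℝ (E n)} (hb : b 0 = ‖u‖⁻¹ • u)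
    (hle : ∀ x ∈ K, |⟪u, x⟫| ≤ 1) {φ : ℝ → ℝ} (hφ : Continuous φ) :
    ∫ x in K, φ ⟪u, x⟫ =
      kappa n * ‖u‖⁻¹ * ∫ t in (-1:ℝ)..1, φ t * dprof K b ‖u‖⁻¹ t ^ n := by
  set c := ‖u‖ with hc
  have hc0 : 0 < c := norm_pos_iff.2 hu
  have e : ∀ x, ⟪u, x⟫ = c * ⟪b 0, x⟫ := fun x => by
    rw [hb, real_inner_smul_left, ← mul_assoc, mul_inv_cancel₀ hc0.ne', one_mul]
  simp only [e]
  rw [(Gen.Contact.integral_height hK b (φ := fun s => φ (c * s)) (hφ.comp (continuous_const.mul continuous_id))).2]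
  have hsub : ∀ s, c⁻¹ < |s| → slArea K b s = 0 := fun s hs' => by
    have : sl (coords b ⁻¹' K) s = ∅ := eq_empty_of_forall_notMem fun y hy => by
      have h1 := hle _ hy
      rw [e, Gen.Contact.repr_coords] at h1
      simp only [Fin.cons_zero, abs_mul, abs_of_pos hc0] at h1
      rw [inv_lt_iff_one_lt_mul₀ hc0] at hs'
      linarith
    simp [slArea, slVol, this]
  have h1 := MeasureTheory.Measure.integral_comp_mul_left
    (fun s => φ (c * s) * slArea K b s) c⁻¹
  simp only [inv_inv, smul_eq_mul, abs_of_pos hc0] at h1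
  rw [show (∫ s, φ (c * s) * slArea K b s) =
    c⁻¹ * ∫ t, φ (c * (c⁻¹ * t)) * slArea K b (c⁻¹ * t) by rw [h1]; field_simp]
  rw [show (∫ t, φ (c * (c⁻¹ * t)) * slArea K b (c⁻¹ * t)) =
      ∫ t in (-1:ℝ)..1, φ t * slArea K b (c⁻¹ * t) by
    rw [intervalIntegral.integral_of_le (by norm_num), ← integral_Icc_eq_integral_Ioc,
      ← integral_indicator measurableSet_Icc]
    refine integral_congr_ae (Eventually.of_forall fun t => ?_)
    simp only [← mul_assoc, mul_inv_cancel₀ hc0.ne', one_mul]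
    by_cases ht : t ∈ Icc (-1:ℝ) 1
    · rw [indicator_of_mem ht]
    · rw [indicator_of_notMem ht, hsub _ ?_, mul_zero]
      rw [abs_mul, abs_of_pos (inv_pos.2 hc0)]
      have : 1 < |t| := not_le.1 fun h => ht (abs_le.1 h)
      nlinarith [inv_pos.2 hc0]]
  simp only [Gen.Contact.slArea_eq hn, dprof]
  rw [mul_comm (kappa n) c⁻¹, mul_assoc]
  congr 1
  rw [← intervalIntegral.integral_const_mul]
  exact intervalIntegral.integral_congr fun t _ => by ring

end

end Vale.Agent.P237.Swap
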