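import Vale.Agent.P237.Swap.Dist

/-!
The swap argument: exchanging two independent uniform points of a symmetric body shows that the
average of a kernel is nonnegative in some direction, and the kernel is then dominated by test
functions of the height.
-/

namespace Vale.Agent.P237.Swap

open MeasureTheory Set Metric Filter
open scoped RealInnerProductSpace Topology
open Gen.Contact (E Ctr dg ht)

noncomputable section

variable {n : ℕ} {K : Set (E n)}

theorem gauge_symm (hs : ∀ x ∈ K, -x ∈ K) (x : E n) : gauge K (-x) = gauge K x :=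
  gauge_neg hs x

/-- The derivative of the gauge is bounded by the gauge. -/
theorem abs_dg_le_gauge (hK : Ctr K) (hs : ∀ x ∈ K, -x ∈ K) (x w : E n) :
    |dg K w x| ≤ gauge K w := by
  by_cases hd : DifferentiableAt ℝ (gauge K) x
  · have H : ∀ z : E n, fderiv ℝ (gauge K) x z ≤ gauge K z := fun z => by
      have hl := (hd.hasFDerivAt.hasLineDerivAt z).hasDerivWithinAt (s := Ioi (0:ℝ))
      have ht := hasDerivWithinAt_iff_tendsto_slope.1 hl
      rw [sdiff_singleton_eq_self (by simp)] at ht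
      refine le_of_tendsto ht ?_
      filter_upwards [self_mem_nhdsWithin] with h (hh : 0 < h)
      rw [slope_def_field, zero_smul, add_zero, sub_zero, div_le_iff₀ hh]
      have h1 := gauge_add_le hK.convex hK.absorbent x (h • z)
      rw [gauge_smul_of_nonneg hh.le, smul_eq_mul] at h1
      linarith
    rw [dg, abs_le]
    refine ⟨?_, H w⟩
    have := H (-w)
    rw [map_neg, gauge_symm hs] at this
    linarith
  · simp [dg, fderiv_zero_of_not_differentiableAt hd, gauge_nonneg]

/-- Euler's identity for the gauge. -/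
theorem dg_self {x : E n} (hd : DifferentiableAt ℝ (gauge K) x) : dg K x x = gauge K x := by
  have h1 : HasDerivAt (fun h : ℝ => gauge K (x + h • x)) (fderiv ℝ (gauge K) x x) 0 :=
    hd.hasFDerivAt.hasLineDerivAt x
  have h2 : HasDerivAt (fun h : ℝ => gauge K (x + h • x)) (gauge K x) 0 := by
    refine (((hasDerivAt_id (0:ℝ)).const_add 1).mul_const (gauge K x)).congr_of_eventuallyEq ?_
      |>.congr_deriv (one_mul _)
    filter_upwards [Ioi_mem_nhds (show (-1:ℝ) < 0 by norm_num)] with h (hh : -1 < h)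
    rw [show x + h • x = (1 + h) • x by rw [add_smul, one_smul],
      gauge_smul_of_nonneg (by linarith), smul_eq_mul, id]
  exact h1.unique h2

/-- Clamped to `[-1, 1]`. -/
def clamp (t : ℝ) : ℝ := max (-1) (min 1 t)

theorem clamp_mem (t : ℝ) : clamp t ∈ Icc (-1 : ℝ) 1 :=
  ⟨le_max_left _ _, max_le (by norm_num) (min_le_left _ _)⟩

theorem clamp_of_mem {t : ℝ} (h : t ∈ Icc (-1 : ℝ) 1) : clamp t = t := by
  rw [clamp, min_eq_right h.2, max_eq_right h.1]

theorem Kernel.continuous_clamp {H : ℝ → ℝ → ℝ} (hH : Kernel H) :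
    Continuous fun p : ℝ × ℝ => H (clamp p.1) (clamp p.2) :=
  hH.cont.comp_continuous (f := fun p : ℝ × ℝ => (clamp p.1, clamp p.2))
    (by unfold clamp; fun_prop) fun p => ⟨clamp_mem _, clamp_mem _⟩

/-- The supporting functional at the ray through a point. -/
def polar (K : Set (E n)) (x : E n) : E n :=
  (InnerProductSpace.toDual ℝ (E n)).symm (fderiv ℝ (gauge K) x)

/-- The boundary point on the ray through a point. -/
def foot (K : Set (E n)) (x : E n) : E n := (gauge K x)⁻¹ • x

theorem inner_polar (x y : E n) : ⟪polar K x, y⟫ = dg K y x := by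
  rw [polar, InnerProductSpace.toDual_symm_apply]
  rfl

/-- A supporting functional and its point. -/
structure Pair (K : Set (E n)) (u v : E n) : Prop where
  inner_eq : ⟪u, v⟫ = 1
  le_one : ∀ x ∈ K, |⟪u, x⟫| ≤ 1
  dg_le : ∀ x, |dg K v x| ≤ 1
  mem : v ∈ K

theorem pair_of_differentiableAt (hK : Ctr K) (hs : ∀ x ∈ K, -x ∈ K) {x₀ : E n}
    (hd : DifferentiableAt ℝ (gauge K) x₀) (hne : x₀ ≠ 0) :
    Pair K (polar K x₀) (foot K x₀) := by
  have hg := hK.gauge_pos hne
  have hv1 : gauge K (foot K x₀) = 1 := by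
    rw [foot, gauge_smul_of_nonneg (inv_nonneg.2 hg.le), smul_eq_mul, inv_mul_cancel₀ hg.ne']
  refine ⟨?_, fun x hx => ?_, fun x => ?_, (hK.gauge_le_one_iff _).1 hv1.le⟩
  · rw [inner_polar, foot, dg, map_smul, smul_eq_mul,
      show fderiv ℝ (gauge K) x₀ x₀ = gauge K x₀ from dg_self hd, inv_mul_cancel₀ hg.ne']
  · rw [inner_polar]
    exact (abs_dg_le_gauge hK hs x₀ x).trans ((hK.gauge_le_one_iff x).2 hx)
  · exact (abs_dg_le_gauge hK hs x (foot K x₀)).trans_eq hv1

/-- The average of the kernel in the direction of one point. -/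
def avg (H : ℝ → ℝ → ℝ) (K : Set (E n)) (x₀ : E n) : ℝ :=
  ∫ x in K, H (ht K (polar K x₀) x) (dg K (foot K x₀) x)

/-- Almost every point gives a pair, and the average over the first point is nonnegative. -/
theorem avg_facts {H : ℝ → ℝ → ℝ} (hH : Kernel H) (hK : Ctr K) (hs : ∀ x ∈ K, -x ∈ K) :
    (∀ᵐ x ∂volume.restrict K, Pair K (polar K x) (foot K x)) ∧
      IntegrableOn (avg H K) K ∧ 0 ≤ ∫ x in K, avg H K x := by
  set μ := (volume : Measure (E n)).restrict K with hμ
  haveI : IsFiniteMeasure μ :=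
    ⟨by rw [hμ, Measure.restrict_apply_univ]; exact hK.compact.measure_lt_top⟩
  set z : E n → E n := foot K with hz
  have hzm : Measurable z := hK.continuous_gauge.measurable.inv.smul measurable_id
  set a : E n × E n → ℝ := fun p => fderiv ℝ (gauge K) p.1 (z p.2) with ha
  have ham : Measurable a := by
    have h1 : Measurable fun p : (E n →L[ℝ] ℝ) × E n => p.1 p.2 :=
      isBoundedBilinearMap_apply.continuous.measurable
    exact h1.comp (((measurable_fderiv ℝ _).comp measurable_fst).prodMk (hzm.comp measurable_snd))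
  set G : E n × E n → ℝ := fun p => H (clamp (a p)) (clamp (a p.swap)) with hG
  have hGm : Measurable G :=
    hH.continuous_clamp.measurable.comp (ham.prodMk (ham.comp measurable_swap))
  obtain ⟨C, hC⟩ := (isCompact_Icc.prod isCompact_Icc).exists_bound_of_continuousOn hH.cont
  have hGi : Integrable G (μ.prod μ) :=
    integrable_bdd hGm fun p => hC (clamp _, clamp _) ⟨clamp_mem _, clamp_mem _⟩
  have h0 : 0 ≤ ∫ p, G p ∂(μ.prod μ) := by
    have e : ∫ p, G p.swap ∂(μ.prod μ) = ∫ p, G p ∂(μ.prod μ) := integral_prod_swap G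
    have hi : Integrable (fun p => G p.swap) (μ.prod μ) := hGi.swap
    have h2 : 0 ≤ ∫ p, G p + G p.swap ∂(μ.prod μ) := integral_nonneg fun p => by
      simp only [hG, Prod.swap_swap, Pi.zero_apply]
      exact hH.swap _ (clamp_mem _) _ (clamp_mem _)
    rw [integral_add hGi hi, e] at h2
    linarith
  rw [integral_prod _ hGi] at h0
  have hP : ∀ᵐ x ∂μ, Pair K (polar K x) (foot K x) :=
    (ae_restrict_of_ae (hK.lipschitz.ae_differentiableAt.and
      (Measure.ae_ne volume (0 : E n)))).mono fun x hx => pair_of_differentiableAt hK hs hx.1 hx.2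
  have he : (fun x => ∫ y, G (x, y) ∂μ) =ᵐ[μ] avg H K := by
    filter_upwards [hP] with x₀ hp
    refine integral_congr_ae (Eventually.of_forall fun x => ?_)
    simp only [hG, ha, Prod.swap_prod_mk]
    have e1 : fderiv ℝ (gauge K) x₀ (z x) = ht K (polar K x₀) x := by
      rw [ht, inner_polar, hz, foot, map_smul, smul_eq_mul, div_eq_inv_mul]
      rfl
    rw [e1, clamp_of_mem (Gen.Contact.ht_mem_Icc hK hp.le_one x),
      show fderiv ℝ (gauge K) x (z x₀) = dg K (foot K x₀) x from rfl,
      clamp_of_mem (abs_le.1 (hp.dg_le x))]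
  exact ⟨hP, hGi.integral_prod_left.congr he, by rwa [integral_congr_ae he] at h0⟩

/-- Some direction in which the average of the kernel is nonnegative. -/
theorem exists_direction {H : ℝ → ℝ → ℝ} (hH : Kernel H) (hK : Ctr K) (hs : ∀ x ∈ K, -x ∈ K) :
    ∃ u v : E n, Pair K u v ∧ 0 ≤ ∫ x in K, H (ht K u x) (dg K v x) := by
  obtain ⟨hP, hi, h0⟩ := avg_facts hH hK hs
  have hμ0 : (volume.restrict K : Measure (E n)) ≠ 0 := by
    rw [ne_eq, Measure.restrict_eq_zero]
    exact ((measure_closedBall_pos volume (0 : E n) one_pos).trans_le (measure_mono hK.ball)).ne'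
  haveI : IsFiniteMeasure (volume.restrict K) :=
    ⟨by rw [Measure.restrict_apply_univ]; exact hK.compact.measure_lt_top⟩
  by_contra hcon
  push Not at hcon
  have hneg : ∀ᵐ x ∂volume.restrict K, avg H K x < 0 := hP.mono fun x hx => hcon _ _ hx
  have hz : ∫ x in K, avg H K x = 0 := le_antisymm (integral_nonpos_of_ae (hneg.mono fun _ h => h.le)) h0
  have := (integral_eq_zero_iff_of_nonneg_ae (hneg.mono fun x hx => neg_nonneg.2 hx.le) hi.neg).1
    (by rw [integral_neg, hz, neg_zero])
  refine hμ0 (ae_eq_bot.1 (eventually_false_iff_eq_bot.1 ?_))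
  filter_upwards [hneg, this] with x h1 h2
  simp only [Pi.zero_apply, neg_eq_zero] at h2
  linarith

/-- The average of the kernel is at most any test, read off the profile. -/
theorem Dir.kernel_le {u v : E n} {d : ℝ} {f : ℝ → ℝ} (hn : 1 ≤ n) (h : Dir n K u v d f)
    {H : ℝ → ℝ → ℝ} (hH : Kernel H) {A0 B0 : ℝ → ℝ} (hA0 : Measurable A0) (hB0 : Measurable B0)
    (hbd : ∃ C, ∀ t ∈ Icc (0 : ℝ) 1, |A0 t| ≤ C ∧ |B0 t| ≤ C)
    (hdom : ∀ a ∈ Icc (0 : ℝ) 1, ∀ b ∈ Icc (-1 : ℝ) 1, H a b ≤ A0 a + B0 a * b) :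
    ((n : ℝ) + 1) * ∫ x in K, H (ht K u x) (dg K v x) ≤
      2 * d * ((n : ℝ) * (∫ t in (0:ℝ)..1, f t ^ (n - 1) * (legD f t * A0 t - deriv f t * B0 t)) +
        f 1 ^ n * (A0 1 + B0 1)) := by
  obtain ⟨C, hC⟩ := hbd
  haveI : IsFiniteMeasure (volume.restrict K) :=
    ⟨by rw [Measure.restrict_apply_univ]; exact h.ctr.compact.measure_lt_top⟩
  set A : ℝ → ℝ := fun t => A0 |clamp t| with hA
  set B : ℝ → ℝ := fun t => if t < 0 then -B0 |clamp t| else B0 |clamp t| with hB
  have habs : ∀ t, |clamp t| ∈ Icc (0:ℝ) 1 := fun t => ⟨abs_nonneg _, abs_le.2 (clamp_mem t)⟩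
  have hcm : Measurable fun t => |clamp t| := by unfold clamp; fun_prop
  have hAm : Measurable A := hA0.comp hcm
  have hBm : Measurable B := Measurable.ite measurableSet_Iio (hB0.comp hcm).neg (hB0.comp hcm)
  have hAb : ∀ t, |A t| ≤ C := fun t => (hC _ (habs t)).1
  have hBb : ∀ t, |B t| ≤ C := fun t => by
    simp only [hB]
    split_ifs
    · rw [abs_neg]; exact (hC _ (habs t)).2
    · exact (hC _ (habs t)).2
  have hAe : ∀ t ∈ Icc (0:ℝ) 1, A t = A0 t ∧ A (-t) = A0 t := fun t ht => by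
    simp only [hA, clamp_of_mem (show t ∈ Icc (-1:ℝ) 1 from ⟨by linarith [ht.1], ht.2⟩),
      clamp_of_mem (show -t ∈ Icc (-1:ℝ) 1 from ⟨by linarith [ht.2], by linarith [ht.1]⟩),
      abs_neg, abs_of_nonneg ht.1, and_self]
  have hBe : ∀ t ∈ Ioc (0:ℝ) 1, B t = B0 t ∧ B (-t) = -B0 t := fun t ht => by
    simp only [hB, clamp_of_mem (show t ∈ Icc (-1:ℝ) 1 from ⟨by linarith [ht.1], ht.2⟩),
      clamp_of_mem (show -t ∈ Icc (-1:ℝ) 1 from ⟨by linarith [ht.2], by linarith [ht.1]⟩),
      abs_neg, abs_of_pos ht.1, if_neg (not_lt.2 ht.1.le), if_pos (neg_neg_of_pos ht.1), and_self]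
  have hdom' : ∀ a ∈ Icc (-1:ℝ) 1, ∀ b ∈ Icc (-1:ℝ) 1, H a b ≤ A a + B a * b := fun a ha b hb => by
    simp only [hA, hB, clamp_of_mem ha]
    split_ifs with h0
    · rw [abs_of_neg h0, ← hH.even a b]
      have := hdom (-a) ⟨by linarith, by linarith [ha.1]⟩ (-b) ⟨by linarith [hb.2], by linarith [hb.1]⟩
      linarith
    · rw [abs_of_nonneg (not_lt.1 h0)]
      exact hdom a ⟨not_lt.1 h0, ha.2⟩ b hb
  have hhm : Measurable (ht K u) :=
    (continuous_const.inner continuous_id).measurable.div h.ctr.continuous_gauge.measurable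
  have hdm := Gen.Contact.measurable_dg K v
  obtain ⟨D, hD⟩ := (isCompact_Icc.prod isCompact_Icc).exists_bound_of_continuousOn hH.cont
  have hhr := Gen.Contact.ht_mem_Icc h.ctr h.le_one
  have i1 : IntegrableOn (fun x => A (ht K u x)) K := integrable_bdd (hAm.comp hhm) fun x => hAb _
  have i2 : IntegrableOn (fun x => dg K v x * B (ht K u x)) K :=
    integrable_bdd (hdm.mul (hBm.comp hhm)) fun x => by
      rw [abs_mul]
      exact (mul_le_mul (h.dg_le x) (hBb _) (abs_nonneg _) zero_le_one).trans (one_mul C).le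
  have i3 : IntegrableOn (fun x => H (ht K u x) (dg K v x)) K := by
    have hm : Measurable fun x => H (clamp (ht K u x)) (clamp (dg K v x)) :=
      hH.continuous_clamp.measurable.comp (hhm.prodMk hdm)
    have := integrable_bdd (μ := volume.restrict K) hm
      fun x => hD (clamp _, clamp _) ⟨clamp_mem _, clamp_mem _⟩
    simp only [clamp_of_mem (hhr _), clamp_of_mem (abs_le.1 (h.dg_le _))] at this
    exact this
  set J := ∫ x in K, H (ht K u x) (dg K v x) with hJ
  have hineq : J ≤ (∫ x in K, A (ht K u x)) + ∫ x in K, dg K v x * B (ht K u x) := by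
    rw [← integral_add i1 i2]
    refine integral_mono i3 (i1.add i2) fun x => ?_
    have := hdom' _ (hhr x) _ (abs_le.1 (h.dg_le x))
    simp only [Pi.add_apply]
    linarith
  obtain ⟨e1, -⟩ := h.identities hn hAm hAb
  obtain ⟨-, e2⟩ := h.identities hn hBm hBb
  set F : ℝ → ℝ := fun t => f t ^ n with hF
  set Φ : ℝ → ℝ := fun t => w1 n f t * A t - deriv F t * B t with hΦ
  have wi : ∀ g : ℝ → ℝ, IntervalIntegrable g volume (-1) 1 → ∀ ψ : ℝ → ℝ, Measurable ψ →
      (∀ t, |ψ t| ≤ C) → IntervalIntegrable (fun t => g t * ψ t) volume (-1) 1 := fun g hg ψ hψ hb => by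
    rw [intervalIntegrable_iff] at hg ⊢
    exact hg.mul_bdd hψ.aestronglyMeasurable (Eventually.of_forall fun t => hb t)
  have hdF : IntervalIntegrable (deriv F) volume (-1) 1 := h.prof.integrable_deriv_pow n
  have hw : IntervalIntegrable (w1 n f) volume (-1) 1 :=
    ((h.prof.integrable_pow n).const_mul _).sub (hdF.continuousOn_mul continuousOn_id)
  have hΦi : IntervalIntegrable Φ volume (-1) 1 := (wi _ hw A hAm hAb).sub (wi _ hdF B hBm hBb)
  have hsum : ((n : ℝ) + 1) * J ≤ d * ((∫ t in (-1:ℝ)..1, Φ t) + top n f * (2 * (A 1 + B 1))) := by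
    have := mul_le_mul_of_nonneg_left hineq (show (0:ℝ) ≤ (n:ℝ) + 1 by positivity)
    rw [mul_add ((n : ℝ) + 1), e1, e2, ← mul_add] at this
    rw [hΦ, intervalIntegral.integral_sub (wi _ hw A hAm hAb) (wi _ hdF B hBm hBb)]
    simp only [neg_mul, intervalIntegral.integral_neg] at this
    have hA1 : A (-1) = A 1 := by
      rw [(hAe 1 (by norm_num)).1, (hAe 1 (by norm_num)).2]
    have hB1 : B (-1) = -B 1 := by
      rw [(hBe 1 (by norm_num)).1, (hBe 1 (by norm_num)).2]
    rw [hA1, hB1] at this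
    refine this.trans (le_of_eq ?_)
    ring
  rw [(hAe 1 (by norm_num)).1, (hBe 1 (by norm_num)).1, h.prof.top_eq n] at hsum
  -- halving
  have hI : IntervalIntegrable Φ volume 0 1 ∧ IntervalIntegrable Φ volume (-1) 0 :=
    ⟨hΦi.mono_set (uIcc_subset_uIcc (by rw [uIcc_of_le (by norm_num)]; norm_num) right_mem_uIcc),
     hΦi.mono_set (uIcc_subset_uIcc left_mem_uIcc (by rw [uIcc_of_le (by norm_num)]; norm_num))⟩
  have hev : ∫ t in (-1:ℝ)..0, Φ t = ∫ t in (0:ℝ)..1, Φ t := by
    have := intervalIntegral.integral_comp_neg (f := Φ) (a := (0:ℝ)) (b := 1)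
    rw [neg_zero] at this
    rw [← this]
    refine intervalIntegral.integral_congr_ae (Eventually.of_forall fun t ht => ?_)
    rw [uIoc_of_le zero_le_one] at ht
    have hd : deriv F (-t) = -deriv F t := by
      have e := deriv_comp_neg (f := F) (x := t)
      simp only [hF, h.prof.even] at e ⊢
      linarith
    simp only [hΦ, w1, (hAe t (Ioc_subset_Icc_self ht)).1, (hAe t (Ioc_subset_Icc_self ht)).2,
      (hBe t ht).1, (hBe t ht).2, h.prof.even]
    simp only [hF] at hd ⊢
    rw [hd]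
    ring
  rw [← intervalIntegral.integral_add_adjacent_intervals hI.2 hI.1, hev] at hsum
  have hval : ∫ t in (0:ℝ)..1, Φ t =
      (n : ℝ) * ∫ t in (0:ℝ)..1, f t ^ (n - 1) * (legD f t * A0 t - deriv f t * B0 t) := by
    rw [← intervalIntegral.integral_const_mul]
    refine intervalIntegral.integral_congr_ae ?_
    filter_upwards [h.prof.deriv_pow_ae n, Measure.ae_ne volume (1:ℝ)] with t hd hne ht
    rw [uIoc_of_le zero_le_one] at ht
    have ht' : t ∈ Ioo (-1:ℝ) 1 := ⟨by linarith [ht.1], lt_of_le_of_ne ht.2 hne⟩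
    simp only [hΦ, w1, legD, hF, (hAe t (Ioc_subset_Icc_self ht)).1, (hBe t ht).1]
    rw [hd ht', show f t ^ n = f t ^ (n - 1) * f t by rw [← pow_succ, Nat.sub_add_cancel hn]]
    ring
  rw [hval] at hsum
  linarith

/-- The profile of a direction with nonnegative kernel average passes every test. -/
theorem Dir.swapOK {u v : E n} {d : ℝ} {f : ℝ → ℝ} (hn : 1 ≤ n) (h : Dir n K u v d f)
    {H : ℝ → ℝ → ℝ} (hH : Kernel H) (hJ : 0 ≤ ∫ x in K, H (ht K u x) (dg K v x)) :
    SwapOK n H f := fun A B hA hB hbd hdom => by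
  have := mul_nonneg (show (0:ℝ) ≤ (n:ℝ) + 1 by positivity) hJ
  exact (mul_nonneg_iff_of_pos_left (mul_pos two_pos h.d_pos)).1
    (this.trans (h.kernel_le hn hH hA hB hbd hdom))

end

end Vale.Agent.P237.Swap
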