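import Vale.Agent.P237.Swap.Convex

/-!
The hypotheses of the equality case: a kernel with tests that vanish on the ellipsoidal profile,
and the strict form of the scalar inequality.
-/

namespace Vale.Agent.P237.Swap

open MeasureTheory Set Filter
open scoped Topology
open Gen.Contact (pw semi)

noncomputable section

variable {n : ℕ}

/-- There are tests whose value at `b = a` is arbitrarily small. -/
def Tight (H : ℝ → ℝ → ℝ) : Prop :=
  ∀ ε : ℝ, 0 < ε → ∃ A B : ℝ → ℝ, Measurable A ∧ Measurable B ∧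
    (∃ C, ∀ t ∈ Icc (0 : ℝ) 1, |A t| ≤ C ∧ |B t| ≤ C) ∧
    (∀ a ∈ Icc (0 : ℝ) 1, ∀ b ∈ Icc (-1 : ℝ) 1, H a b ≤ A a + B a * b) ∧
    ∀ a ∈ Icc (0 : ℝ) 1, A a + a * B a ≤ ε

/-- The strict form: only multiples of the semicircle reverse the sharp inequality. -/
def KernelEq (n : ℕ) (H : ℝ → ℝ → ℝ) : Prop :=
  ∀ f : ℝ → ℝ, Prof f → SwapOK n H f →
    pw (n - 1) f ^ n * pw n semi ^ (n - 1) ≤ pw (n - 1) semi ^ n * pw n f ^ (n - 1) →
    ∃ c : ℝ, ∀ t ∈ Icc (0 : ℝ) 1, f t = c * semi t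

/-- The strict form of the scalar inequality for a test function. -/
def ScalarEq (n : ℕ) (φ : ℝ → ℝ) : Prop :=
  ∀ f : ℝ → ℝ, Prof f → 0 ≤ swapX n φ f →
    pw (n - 1) f ^ n * pw n semi ^ (n - 1) ≤ pw (n - 1) semi ^ n * pw n f ^ (n - 1) →
    ∃ c : ℝ, ∀ t ∈ Icc (0 : ℝ) 1, f t = c * semi t

theorem kernelEq_of_scalar (hn : 1 ≤ n) {φ : ℝ → ℝ} (hφ : Test φ) (hL : ScalarEq n φ) :
    KernelEq n (diffKer φ) :=
  fun f hf hok => hL f hf (swapX_nonneg hn hφ hf hok)

theorem Test.tight {φ : ℝ → ℝ} (hφ : Test φ) : Tight (diffKer φ) := by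
  intro ε hε
  obtain ⟨δ, hδ, hu⟩ := Metric.uniformContinuousOn_iff.1
    (isCompact_Icc.uniformContinuousOn_of_continuous hφ.cont) ε hε
  obtain ⟨r, hrp, hr1, hrδ⟩ : ∃ r : ℝ, 0 < r ∧ r < 1 ∧ 1 - r < δ :=
    ⟨max (1 / 2) (1 - δ / 2), lt_of_lt_of_le (by norm_num) (le_max_left _ _),
      max_lt (by norm_num) (by linarith), by linarith [le_max_right (1 / 2) (1 - δ / 2)]⟩
  have hr0 := hrp.le
  set φ' : ℝ → ℝ := fun t => φ |max (-1) (min 1 t)| with hφ'
  have hφc : Continuous φ' :=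
    hφ.cont.comp_continuous (f := fun t : ℝ => |max (-1) (min 1 t)|) (by fun_prop)
      fun t => abs_mem (clamp_mem t)
  have hφe : ∀ t ∈ Icc (0 : ℝ) 1, φ' t = φ t := fun t ht => by
    simp only [hφ', min_eq_right ht.2, max_eq_right (show (-1:ℝ) ≤ t by linarith [ht.1]),
      abs_of_nonneg ht.1]
  set s : ℝ → ℝ := fun t => sub φ r (r * t) with hs
  have hsm : Measurable s := (hφ.sub_mono hr0 hr1).measurable.comp (measurable_id.const_mul r)
  obtain ⟨C, hC⟩ := isCompact_Icc.exists_bound_of_continuousOn hφ.cont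
  set S := max |sub φ r 0| |sub φ r r| with hS
  have hm : ∀ t ∈ Icc (0 : ℝ) 1, r * t ∈ Icc (0 : ℝ) r := fun t ht =>
    ⟨mul_nonneg hr0 ht.1, mul_le_of_le_one_right hr0 ht.2⟩
  have hsb : ∀ t ∈ Icc (0 : ℝ) 1, |s t| ≤ S := fun t ht => by
    have h1 := hφ.sub_mono hr0 hr1 (hm t ht).1
    have h2 := hφ.sub_mono hr0 hr1 (hm t ht).2
    have := neg_abs_le (sub φ r 0)
    have := le_abs_self (sub φ r r)
    have := le_max_left |sub φ r 0| |sub φ r r|
    have := le_max_right |sub φ r 0| |sub φ r r|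
    simp only [hs]
    rw [abs_le]
    constructor <;> linarith
  have hle : ∀ a ∈ Icc (0 : ℝ) 1, ∀ b ∈ Icc (-1 : ℝ) 1, φ (r * a) + s a * (b - r * a) ≤ φ |b| :=
    fun a ha b hb => by
      have := hφ.le_sub hr1 (p := r * a) ⟨by linarith [(hm a ha).1], (hm a ha).2⟩ hb
      rwa [abs_of_nonneg (hm a ha).1] at this
  refine ⟨fun t => φ' t - φ' (r * t) + s t * (r * t), fun t => -s t,
    (hφc.measurable.sub (hφc.measurable.comp (measurable_id.const_mul r))).add
      (hsm.mul (measurable_id.const_mul r)), hsm.neg, ⟨C + C + S, fun t ht => ?_⟩,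
    fun a ha b hb => ?_, fun a ha => ?_⟩
  · have h0 := hsb t ht
    have hb := hm t ht
    have h1 : |s t * (r * t)| ≤ S := by
      rw [abs_mul]
      exact (mul_le_mul h0 (show |r * t| ≤ 1 by rw [abs_of_nonneg hb.1]; linarith [hb.2])
        (abs_nonneg _) ((abs_nonneg _).trans h0)).trans (mul_one S).le
    refine ⟨(abs_add_le _ _).trans (add_le_add ((abs_sub _ _).trans
      (add_le_add (hC _ (abs_mem (clamp_mem _))) (hC _ (abs_mem (clamp_mem _))))) h1), ?_⟩
    rw [abs_neg]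
    linarith [(abs_nonneg _).trans (hC 0 ⟨le_rfl, zero_le_one⟩)]
  · have := hle a ha b hb
    have hra : r * a ∈ Icc (0 : ℝ) 1 := ⟨(hm a ha).1, (hm a ha).2.trans hr1.le⟩
    simp only [diffKer, hφe a ha, hφe _ hra, abs_of_nonneg ha.1]
    linarith
  · have hra : r * a ∈ Icc (0 : ℝ) 1 := ⟨(hm a ha).1, (hm a ha).2.trans hr1.le⟩
    have hd : dist a (r * a) < δ := by
      rw [Real.dist_eq, show a - r * a = (1 - r) * a by ring, abs_mul,
        abs_of_pos (sub_pos.2 hr1), abs_of_nonneg ha.1]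
      exact (mul_le_of_le_one_right (sub_pos.2 hr1).le ha.2).trans_lt hrδ
    have h2 := hu a ha (r * a) hra hd
    rw [Real.dist_eq, abs_lt] at h2
    have hsign : 0 ≤ s a * ((1 - r) * a) := by
      rcases eq_or_lt_of_le ha.1 with h | h
      · simp [← h]
      refine mul_nonneg ?_ (mul_nonneg (sub_pos.2 hr1).le ha.1)
      have := hle a ha (-(r * a)) ⟨by linarith [hra.2], by linarith [hra.1]⟩
      rw [abs_neg, abs_of_nonneg hra.1] at this
      by_contra hc
      nlinarith [mul_pos hrp h, not_le.1 hc]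
    simp only [hφe a ha, hφe _ hra]
    linarith

end

end Vale.Agent.P237.Swap
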